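import Crest.Agent.N76.LG.ZDefs
import Crest.Agent.N76.L.Geo

-- ▼ part N76/LG/Frame1
section

/-! # Row 76, Lemma G, change of frame, part 1: passing to the lattice (helper54) -/

set_option autoImplicit false

namespace Crest.Agent.N76.LG

open Finset Function
open Crest.Agent.N76.MK

variable {D : Type} [Fintype D] [DecidableEq D]

open Classical in
/-- the hypotheses of `L.LemG` in uniform coordinates (`o` = time coordinate) -/
structure HG {α ι : Type} (k : ℕ) (o : D) (N s c L : ℝ) (Y : Finset α) (X : α → D → ℝ)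
    (Θ : D → Finset ι) (u : ι → D → ℝ) (I : α → Finset ι) : Prop where
  bd : ∀ y ∈ Y, ∀ i, |X y i| ≤ L * N
  big : (N ^ s) ^ (k + 1) ≤ L * Y.card
  mult : Mult Y X L
  cells : ∀ ρ : ℝ, 1 ≤ ρ → ρ ≤ N → ∃ F : Finset (D → ℝ),
    (F.card : ℝ) * (ρ ^ s) ^ (k + 1) ≤ L * Y.card ∧ ∀ y ∈ Y, ∃ f ∈ F, ∀ i, |X y i - f i| ≤ L * ρ
  ne : ∀ j, (Θ j).Nonempty
  pop : ∀ y ∈ Y, ∀ j, ((Θ j).card : ℝ) ≤ L * (I y ∩ Θ j).card
  many : N ^ c ≤ (Θ o).card
  multd : Mult (Θ o) (fun θ i => N * u θ i) L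
  u0 : ∀ θ, u θ o = 1
  ub : ∀ j, ∀ θ ∈ Θ j, ∀ i, |u θ i| ≤ L
  det : ∀ t : D → ι, (∀ j, t j ∈ Θ j) → 1 ≤ L * |(Matrix.of fun i j => u (t j) i).det|
  tubes : ∀ j, ∀ θ ∈ Θ j, ∀ ρ : ℝ, 1 ≤ ρ → ρ ≤ N → ∀ x₀ : D → ℝ, ∃ F : Finset (D → ℝ),
    (F.card : ℝ) ≤ L * (ρ ^ s) ^ k ∧ ∀ y ∈ Y, θ ∈ I y → (∀ i, |X y i - x₀ i| ≤ ρ) →
      ∃ g ∈ F, ∀ i, |X y i - X y o * u θ i - g i| ≤ L

omit [DecidableEq D] in
lemma Mult.mono' {α : Type} {Y : Finset α} {X : α → D → ℝ} {L K : ℝ} (h : Mult Y X L)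
    (hK : L ≤ K) : Mult Y X K := fun y => (h y).trans hK

lemma HG.mono {α ι : Type} {k : ℕ} {o : D} {N s c L K : ℝ} {Y : Finset α} {X : α → D → ℝ}
    {Θ : D → Finset ι} {u : ι → D → ℝ} {I : α → Finset ι} (h : HG k o N s c L Y X Θ u I)
    (hN : 0 ≤ N) (hK : L ≤ K) : HG k o N s c K Y X Θ u I where
  bd y hy i := (h.bd y hy i).trans (mul_le_mul_of_nonneg_right hK hN)
  big := h.big.trans (mul_le_mul_of_nonneg_right hK (Nat.cast_nonneg _))
  mult := Mult.mono' h.mult hK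
  cells ρ h1 h2 := by
    obtain ⟨F, hF, hF'⟩ := h.cells ρ h1 h2
    refine ⟨F, hF.trans (mul_le_mul_of_nonneg_right hK (Nat.cast_nonneg _)), fun y hy => ?_⟩
    obtain ⟨f, hf, hf'⟩ := hF' y hy
    exact ⟨f, hf, fun i => (hf' i).trans (mul_le_mul_of_nonneg_right hK (by linarith))⟩
  ne := h.ne
  pop y hy j := (h.pop y hy j).trans (mul_le_mul_of_nonneg_right hK (Nat.cast_nonneg _))
  many := h.many
  multd := Mult.mono' h.multd hK
  u0 := h.u0
  ub j θ hθ i := (h.ub j θ hθ i).trans hK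
  det t ht := (h.det t ht).trans (mul_le_mul_of_nonneg_right hK (abs_nonneg _))
  tubes j θ hθ ρ h1 h2 x₀ := by
    obtain ⟨F, hF, hF'⟩ := h.tubes j θ hθ ρ h1 h2 x₀
    refine ⟨F, hF.trans (mul_le_mul_of_nonneg_right hK
      (pow_nonneg (Real.rpow_nonneg (by linarith) _) _)), fun y hy h3 h4 => ?_⟩
    obtain ⟨g, hg, hg'⟩ := hF' y hy h3 h4
    exact ⟨g, hg, fun i => (hg' i).trans hK⟩

/-- counting lattice values through a cover -/
lemma card_image_cover {α β : Type} (S : Finset α) (F : Finset β) (r : α → β → Prop)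
    (φ : α → D → ℤ) {R : ℝ} (hR : 1 ≤ R) (hc : ∀ y ∈ S, ∃ f ∈ F, r y f)
    (hr : ∀ y ∈ S, ∀ y' ∈ S, ∀ f, r y f → r y' f → ∀ i, |(φ y i : ℝ) - φ y' i| ≤ R) :
    ((S.image φ).card : ℝ) ≤ F.card * (5 * R) ^ Fintype.card D := by
  classical
  have h1 : S.image φ ⊆ F.biUnion fun f => (S.filter fun y => r y f).image φ := by
    intro z hz
    obtain ⟨y, hy, rfl⟩ := mem_image.1 hz
    obtain ⟨f, hf, hyf⟩ := hc y hy
    exact mem_biUnion.2 ⟨f, hf, mem_image_of_mem _ (mem_filter.2 ⟨hy, hyf⟩)⟩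
  have h2 : ∀ f ∈ F, (((S.filter fun y => r y f).image φ).card : ℝ) ≤
      (5 * R) ^ Fintype.card D := by
    intro f _
    rcases (S.filter fun y => r y f).eq_empty_or_nonempty with h | ⟨y0, hy0⟩
    · rw [h]; simp only [image_empty, card_empty, Nat.cast_zero]; positivity
    · refine le_trans ?_ (card_box (D := D) hR)
      have : ((S.filter fun y => r y f).image φ).card ≤ (box D R).card := by
        refine card_le_card_of_injOn (fun z => z - φ y0) ?_ (fun a _ b _ h => sub_left_injective h)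
        intro z hz
        obtain ⟨y, hy, rfl⟩ := mem_image.1 (mem_coe.1 hz)
        refine mem_coe.2 (mem_box fun i => ?_)
        have := hr y (mem_filter.1 hy).1 y0 (mem_filter.1 hy0).1 f (mem_filter.1 hy).2
          (mem_filter.1 hy0).2 i
        simp only [Pi.sub_apply, Int.cast_sub]
        linarith
      exact_mod_cast this
  calc ((S.image φ).card : ℝ) ≤ ∑ f ∈ F, (((S.filter fun y => r y f).image φ).card : ℝ) := by
        exact_mod_cast (card_le_card h1).trans card_biUnion_le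
    _ ≤ _ := by
        refine (sum_le_card_nsmul _ _ _ h2).trans (le_of_eq ?_)
        rw [nsmul_eq_mul]

/-- fibres of bounded size -/
lemma card_le_fibres {α β : Type} [DecidableEq β] (S : Finset α) (φ : α → β) {M : ℝ}
    (h : ∀ y ∈ S, ((S.filter fun y' => φ y' = φ y).card : ℝ) ≤ M) :
    (S.card : ℝ) ≤ M * (S.image φ).card := by
  rw [card_eq_sum_card_image φ S]
  push_cast
  refine (sum_le_card_nsmul _ _ M fun b hb => ?_).trans (le_of_eq ?_)
  · obtain ⟨y, hy, rfl⟩ := mem_image.1 hb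
    exact h y hy
  · rw [nsmul_eq_mul, mul_comm]

/-- the tube hypothesis on a larger cube -/
lemma HG.tubes_ext {α ι : Type} {k : ℕ} {o : D} {N s c L : ℝ} {Y : Finset α} {X : α → D → ℝ}
    {Θ : D → Finset ι} {u : ι → D → ℝ} {I : α → Finset ι} (h : HG k o N s c L Y X Θ u I)
    {j : D} {θ : ι} (hθ : θ ∈ Θ j) {ρ R : ℝ} (h1 : 1 ≤ ρ) (h2 : ρ ≤ N) (hR : 1 ≤ R)
    (x₀ : D → ℝ) : ∃ F : Finset (D → ℝ),
    (F.card : ℝ) ≤ (5 * R) ^ Fintype.card D * (L * (ρ ^ s) ^ k) ∧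
      ∀ y ∈ Y, θ ∈ I y → (∀ i, |X y i - x₀ i| ≤ R * ρ) →
      ∃ g ∈ F, ∀ i, |X y i - X y o * u θ i - g i| ≤ L := by
  classical
  choose F hF hF' using fun z : D → ℤ => h.tubes j θ hθ ρ h1 h2 (fun i => x₀ i + ρ * z i)
  have hρ : 0 < ρ := by linarith
  refine ⟨(box D R).biUnion F, ?_, fun y hy hI hx => ?_⟩
  · calc (((box D R).biUnion F).card : ℝ) ≤ ∑ z ∈ box D R, ((F z).card : ℝ) := by
          exact_mod_cast card_biUnion_le
      _ ≤ (box D R).card • (L * (ρ ^ s) ^ k) := sum_le_card_nsmul _ _ _ fun z _ => hF z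
      _ ≤ _ := by
          rw [nsmul_eq_mul]
          exact mul_le_mul_of_nonneg_right (card_box hR) (le_trans (Nat.cast_nonneg _) (hF 0))
  · set z : D → ℤ := fun i => round ((X y i - x₀ i) / ρ) with hz
    have h3 : ∀ i, |(X y i - x₀ i) / ρ - z i| ≤ 1 / 2 := fun i => abs_sub_round _
    have h4 : ∀ i, |(X y i - x₀ i) / ρ| ≤ R := fun i => by
      rw [abs_div, abs_of_pos hρ, div_le_iff₀ hρ]; exact hx i
    obtain ⟨g, hg, hg'⟩ := hF' z y hy hI fun i => by
      have e : X y i - (x₀ i + ρ * z i) = ρ * ((X y i - x₀ i) / ρ - z i) := by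
        field_simp; ring
      rw [e, abs_mul, abs_of_pos hρ]
      nlinarith [h3 i]
    refine ⟨g, mem_biUnion.2 ⟨z, mem_box fun i => ?_, hg⟩, hg'⟩
    have a1 := abs_le.1 (h3 i)
    have a2 := abs_le.1 (h4 i)
    rw [abs_lt]; constructor <;> linarith [a1.1, a1.2, a2.1, a2.2]

lemma floor_close (a b : ℝ) : |(⌊a⌋ : ℝ) - ⌊b⌋| ≤ |a - b| + 1 := by
  have h1 := Int.floor_le a
  have h2 := Int.lt_floor_add_one a
  have h3 := Int.floor_le b
  have h4 := Int.lt_floor_add_one b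
  have h5 := le_abs_self (a - b)
  have h6 := neg_abs_le (a - b)
  rw [abs_le]; constructor <;> linarith

lemma floor_err (a b : ℝ) : |(⌊a⌋ : ℝ) - ⌊b⌋ - (a - b)| ≤ 1 := by
  have h1 := Int.floor_le a
  have h2 := Int.lt_floor_add_one a
  have h3 := Int.floor_le b
  have h4 := Int.lt_floor_add_one b
  rw [abs_le]; constructor <;> linarith

lemma close_of_floor (a b : ℝ) : |a - b| ≤ |(⌊a⌋ : ℝ) - ⌊b⌋| + 1 := by
  have h := abs_le.1 (floor_err a b)
  have h5 := le_abs_self ((⌊a⌋ : ℝ) - ⌊b⌋)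
  have h6 := neg_abs_le ((⌊a⌋ : ℝ) - ⌊b⌋)
  rw [abs_le]; constructor <;> linarith [h.1, h.2]

/-- a frame: a linear map with two-sided bounds -/
structure Frm (G : (D → ℝ) →ₗ[ℝ] (D → ℝ)) (K : ℝ) : Prop where
  fw : ∀ (y : D → ℝ) (t : ℝ), (∀ i, |y i| ≤ t) → ∀ i, |G y i| ≤ K * t
  bw : ∀ (y : D → ℝ) (t : ℝ), (∀ i, |G y i| ≤ t) → ∀ i, |y i| ≤ K * t

omit [Fintype D] [DecidableEq D] in
/-- two points of one tube -/
lemma Frm.same_tube {G : (D → ℝ) →ₗ[ℝ] (D → ℝ)} {K : ℝ} (hG : Frm G K) {x x' w g : D → ℝ}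
    {t t' : ℝ} (h : ∀ i, |x i - t * w i - g i| ≤ K) (h' : ∀ i, |x' i - t' * w i - g i| ≤ K)
    (i : D) : |G x i - G x' i - (t - t') * G w i| ≤ K * (2 * K) := by
  have := hG.fw (x - x' - (t - t') • w) (2 * K) (fun l => by
    have a := abs_le.1 (h l)
    have b := abs_le.1 (h' l)
    simp only [Pi.sub_apply, Pi.smul_apply, smul_eq_mul]
    rw [abs_le]; constructor <;> nlinarith [a.1, a.2, b.1, b.2]) i
  simpa only [map_sub, map_smul, Pi.sub_apply, Pi.smul_apply, smul_eq_mul] using this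

lemma pow_le_big {K : ℝ} (hK : 10 ≤ K) {d a m : ℕ} {R : ℝ} (hR0 : 0 ≤ R) (hR : R ≤ K ^ a)
    (hm : (a + 1) * d ≤ m) : (5 * R) ^ d ≤ K ^ m := by
  have h1 : 5 * R ≤ K ^ (a + 1) := by
    rw [pow_succ]; nlinarith [pow_pos (show 0 < K by linarith) a]
  calc (5 * R) ^ d ≤ (K ^ (a + 1)) ^ d := pow_le_pow_left₀ (by positivity) h1 d
    _ = K ^ ((a + 1) * d) := by rw [← pow_mul]
    _ ≤ _ := pow_le_pow_right₀ (by linarith) hm

/-- **Passing to the lattice.** -/
theorem hypZ_of {α ι : Type} {k : ℕ} (hk : Fintype.card D = k + 1) {o i1 : D}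
    {N s c K κ ρ₀ : ℝ} {Y : Finset α} {X : α → D → ℝ} {Θ : D → Finset ι} {u : ι → D → ℝ}
    {I : α → Finset ι} (h : HG k o N s c K Y X Θ u I) (hK : 10 ≤ K) (hN : 1 ≤ N)
    {G : (D → ℝ) →ₗ[ℝ] (D → ℝ)} (hG : Frm G K) (t : D → ι) (ht : ∀ j, t j ∈ Θ j)
    (hax : ∀ j i, i ≠ j → G (u (t j)) i = 0) (S₀ : Finset α) (hS₀ : S₀ ⊆ Y)
    (hS₀I : ∀ y ∈ S₀, ∀ j, t j ∈ I y) (P : Finset ι) (hP : P.Nonempty) (hPΘ : P ⊆ Θ o)
    (S : ι → Finset α) (hS : ∀ θ ∈ P, S θ ⊆ S₀) (hSI : ∀ θ ∈ P, ∀ y ∈ S θ, θ ∈ I y)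
    (hSc : ∀ θ ∈ P, (Y.card : ℝ) ≤ K * (S θ).card) (b : ι → D → ℝ) (g : ι → ℝ)
    (hb : ∀ θ ∈ P, ∀ i, G (u θ) i = g θ * b θ i) (hb0 : ∀ θ ∈ P, b θ o = 1)
    (hbK : ∀ θ ∈ P, ∀ i, |b θ i| ≤ K) (hsl : ∀ θ ∈ P, |ρ₀ * b θ i1| ≤ 1) (hρ₀ : 0 < ρ₀)
    (hfr : Fr P (fun θ i => ρ₀ * b θ i) {i1} (ρ₀ / N) κ K) :
    ∃ (YZ : Finset (D → ℤ)) (W : ι → Finset (D → ℤ)) (τ : ι → (D → ℤ) → (D → ℝ)),
      HypZ k o i1 N s κ (K ^ (10 * (k + 1))) ρ₀ YZ P b W τ := by
  classical
  have hK0 : 0 < K := by linarith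
  have hK1 : 1 ≤ K := by linarith
  have hKp : ∀ {a m : ℕ}, a ≤ m → K ^ a ≤ K ^ m := fun hm => pow_le_pow_right₀ hK1 hm
  set p : α → D → ℤ := fun y i => ⌊G (X y) i⌋ with hp
  have hsub : ∀ y y' i, G (X y) i - G (X y') i = G (X y - X y') i := fun y y' i => by
    rw [map_sub]; rfl
  -- fibres of `p`
  have hfib : ∀ T : Finset α, T ⊆ Y → (T.card : ℝ) ≤ K ^ (2 * (k + 1) + 1) * (T.image p).card := by
    intro T hT
    refine card_le_fibres T p fun y _ => ?_
    have := h.mult.card_le hK1 (X y) (T.filter fun y' => p y' = p y)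
      ((filter_subset _ _).trans hT) fun y' hy' i => by
        have h1 := hG.bw (X y' - X y) 1 (fun l => by
          rw [← hsub]
          have := close_of_floor (G (X y') l) (G (X y) l)
          have e : ⌊G (X y') l⌋ = ⌊G (X y) l⌋ := congrFun (mem_filter.1 hy').2 l
          rw [e, sub_self, abs_zero, zero_add] at this
          exact this) i
        simpa using h1
    refine this.trans ?_
    rw [pow_succ', hk]
    exact mul_le_mul_of_nonneg_left (pow_le_big hK hK0.le (a := 1) (by simp) (by omega)) hK0.le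
  have hYS : ∀ θ ∈ P, (Y.card : ℝ) ≤ K ^ (2 * (k + 1) + 2) * ((S θ).image p).card := by
    intro θ hθ
    refine (hSc θ hθ).trans ?_
    rw [pow_succ' K (2 * (k + 1) + 1), mul_assoc]
    exact mul_le_mul_of_nonneg_left (hfib _ ((hS θ hθ).trans hS₀)) hK0.le
  -- projections
  have hproj : ∀ (j : D) (ρ : ℝ), 1 ≤ ρ → ρ ≤ N → ∀ (x₀ : D → ℝ) (T : Finset α), T ⊆ S₀ →
      (∀ y ∈ T, ∀ i, |X y i - x₀ i| ≤ K ^ 2 * ρ) →
      ((prj j (T.image p)).card : ℝ) ≤ K ^ (10 * (k + 1)) * (ρ ^ s) ^ k := by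
    intro j ρ h1 h2 x₀ T hT hx
    obtain ⟨F, hF, hF'⟩ := h.tubes_ext (ht j) h1 h2 (R := K ^ 2) (one_le_pow₀ hK1) x₀
    have e : prj j (T.image p) = T.image fun y => update (p y) j 0 := by
      unfold prj; rw [image_image]; rfl
    rw [e]
    have hρs : 0 ≤ (ρ ^ s) ^ k := pow_nonneg (Real.rpow_nonneg (by linarith) _) _
    refine (card_image_cover T F (fun y f => ∀ i, |X y i - X y o * u (t j) i - f i| ≤ K) _
      (R := K ^ 3) (one_le_pow₀ hK1)
      (fun y hy => hF' y (hS₀ (hT hy)) (hS₀I y (hT hy) j) (hx y hy)) ?_).trans ?_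
    · intro y _ y' _ f a a' i
      by_cases hi : i = j
      · subst hi; simp only [update_self, sub_self, abs_zero]; positivity
      · simp only [update_of_ne hi]
        have h3 := hG.same_tube a a' i
        rw [hax j i hi, mul_zero, sub_zero] at h3
        refine (floor_close _ _).trans ?_
        nlinarith
    · have a1 := pow_le_big hK (d := Fintype.card D) (a := 3) (m := 4 * (k + 1)) (R := K ^ 3)
        (by positivity) le_rfl (by omega)
      have a2 := pow_le_big hK (d := Fintype.card D) (a := 2) (m := 3 * (k + 1)) (R := K ^ 2)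
        (by positivity) le_rfl (by omega)
      calc (F.card : ℝ) * (5 * K ^ 3) ^ Fintype.card D
          ≤ (K ^ (3 * (k + 1)) * (K * (ρ ^ s) ^ k)) * K ^ (4 * (k + 1)) :=
            mul_le_mul (hF.trans (mul_le_mul_of_nonneg_right a2 (by positivity))) a1
              (by positivity) (by positivity)
        _ = K ^ (7 * (k + 1) + 1) * (ρ ^ s) ^ k := by ring
        _ ≤ _ := mul_le_mul_of_nonneg_right (hKp (by omega)) hρs
  -- labels
  have hlab : ∀ θ ∈ P, ∃ F : Finset (D → ℝ), (F.card : ℝ) ≤ K ^ (10 * (k + 1)) * (N ^ s) ^ k ∧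
      ∀ z ∈ (S θ).image p, ∃ f ∈ F, ∃ y, p y = z ∧ ∀ i, |X y i - X y o * u θ i - f i| ≤ K := by
    intro θ hθ
    obtain ⟨F, hF, hF'⟩ := h.tubes_ext (hPΘ hθ) hN le_rfl hK1 0
    refine ⟨F, hF.trans ?_, fun z hz => ?_⟩
    · have a2 := pow_le_big hK (d := Fintype.card D) (a := 1) (m := 2 * (k + 1)) (R := K)
        hK0.le (by simp) (by omega)
      have hρs : 0 ≤ (N ^ s) ^ k := pow_nonneg (Real.rpow_nonneg (by linarith) _) _
      calc _ ≤ K ^ (2 * (k + 1)) * (K * (N ^ s) ^ k) :=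
            mul_le_mul_of_nonneg_right a2 (by positivity)
        _ = K ^ (2 * (k + 1) + 1) * (N ^ s) ^ k := by ring
        _ ≤ _ := mul_le_mul_of_nonneg_right (hKp (by omega)) hρs
    · obtain ⟨y, hy, rfl⟩ := mem_image.1 hz
      have hyY := hS₀ (hS θ hθ hy)
      obtain ⟨f, hf, hf'⟩ := hF' y hyY (hSI θ hθ y hy) (fun i => by simpa using h.bd y hyY i)
      exact ⟨f, hf, y, rfl, hf'⟩
  choose! F hF hF' using hlab
  choose! τ hτ hτ' using hF'
  obtain ⟨θ₁, hθ₁⟩ := hP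
  have hYZ : (Y.card : ℝ) ≤ K ^ (2 * (k + 1) + 2) * (S₀.image p).card :=
    (hYS θ₁ hθ₁).trans (mul_le_mul_of_nonneg_left
      (by exact_mod_cast card_le_card (image_subset_image (hS θ₁ hθ₁))) (by positivity))
  refine ⟨S₀.image p, fun θ => (S θ).image p, τ, ⟨θ₁, hθ₁⟩, ?_, ?_, ?_, ?_, ?_, ?_, ?_, ?_, hsl, ?_⟩
  · intro z hz i
    obtain ⟨y, hy, rfl⟩ := mem_image.1 hz
    have h1 := hG.fw (X y) _ (h.bd y (hS₀ hy)) i
    have h2 := floor_close (G (X y) i) 0
    simp only [Int.floor_zero, Int.cast_zero, sub_zero] at h2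
    have h3 : K ^ 3 ≤ K ^ (10 * (k + 1)) := hKp (by omega)
    have h5 : 1 ≤ K * (K * N) := one_le_mul_of_one_le_of_one_le hK1
      (one_le_mul_of_one_le_of_one_le hK1 hN)
    have h4 : K * (K * N) + 1 ≤ K ^ 3 * N := by nlinarith
    have h6 : K ^ 3 * N ≤ K ^ (10 * (k + 1)) * N := mul_le_mul_of_nonneg_right h3 (by linarith)
    simp only [hp]
    linarith
  · exact fun θ hθ => image_subset_image (hS θ hθ)
  · intro θ hθ
    calc _ ≤ K * Y.card := h.big
      _ ≤ K * (K ^ (2 * (k + 1) + 2) * ((S θ).image p).card) :=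
          mul_le_mul_of_nonneg_left (hYS θ hθ) hK0.le
      _ = K ^ (2 * (k + 1) + 3) * ((S θ).image p).card := by ring
      _ ≤ _ := mul_le_mul_of_nonneg_right (hKp (by omega)) (Nat.cast_nonneg _)
  · intro ρ h1 h2
    have hρ : 0 < ρ := by linarith
    obtain ⟨F', hF1, hF2⟩ := h.cells ρ h1 h2
    rw [image_image]
    have h3 := card_image_cover S₀ F' (fun y f => ∀ i, |X y i - f i| ≤ K * ρ) (cel ρ ∘ p)
      (R := K ^ 3) (one_le_pow₀ hK1) (fun y hy => hF2 y (hS₀ hy)) (by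
        intro y _ y' _ f a a' i
        have h4 := hG.fw (X y - X y') (2 * (K * ρ)) (fun l => by
          have b1 := abs_le.1 (a l)
          have b2 := abs_le.1 (a' l)
          rw [Pi.sub_apply, abs_le]; constructor <;> linarith [b1.1, b1.2, b2.1, b2.2]) i
        rw [← hsub] at h4
        have h5 := floor_close (G (X y) i) (G (X y') i)
        refine (floor_close _ _).trans ?_
        have h6 : |(p y i : ℝ) / ρ - p y' i / ρ| ≤ 2 * K * K + 1 := by
          rw [← sub_div, abs_div, abs_of_pos hρ, div_le_iff₀ hρ]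
          simp only [hp]
          nlinarith
        nlinarith [mul_pos hK0 hK0])
    have a1 := pow_le_big hK (d := Fintype.card D) (a := 3) (m := 4 * (k + 1)) (R := K ^ 3)
        (by positivity) le_rfl (by omega)
    have hρs : 0 ≤ (ρ ^ s) ^ (k + 1) := pow_nonneg (Real.rpow_nonneg (by linarith) _) _
    calc _ ≤ (F'.card * K ^ (4 * (k + 1))) * (ρ ^ s) ^ (k + 1) :=
          mul_le_mul_of_nonneg_right (h3.trans (mul_le_mul_of_nonneg_left a1 (Nat.cast_nonneg _)))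
            hρs
      _ = K ^ (4 * (k + 1)) * (F'.card * (ρ ^ s) ^ (k + 1)) := by ring
      _ ≤ K ^ (4 * (k + 1)) * (K * (K ^ (2 * (k + 1) + 2) * (S₀.image p).card)) :=
          mul_le_mul_of_nonneg_left (hF1.trans (mul_le_mul_of_nonneg_left hYZ hK0.le))
            (by positivity)
      _ = K ^ (6 * (k + 1) + 3) * (S₀.image p).card := by ring
      _ ≤ _ := mul_le_mul_of_nonneg_right (hKp (by omega)) (Nat.cast_nonneg _)
  · intro ρ h1 h2 c' j
    have hρ : 0 < ρ := by linarith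
    rw [filter_image]
    rcases (S₀.filter fun y => cel ρ (p y) = c').eq_empty_or_nonempty with he | ⟨y0, hy0⟩
    · rw [he]
      simp only [prj, image_empty, card_empty, Nat.cast_zero]
      have : 0 ≤ (ρ ^ s) ^ k := pow_nonneg (Real.rpow_nonneg hρ.le _) _
      positivity
    · refine hproj j ρ h1 h2 (X y0) _ (filter_subset _ _) fun y hy i => ?_
      have h3 := hG.bw (X y - X y0) (2 * ρ) (fun l => by
        rw [← hsub]
        refine (close_of_floor _ _).trans ?_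
        have e : cix ρ (fun l => (p y l : ℝ)) = cix ρ (fun l => (p y0 l : ℝ)) :=
          ((mem_filter.1 hy).2).trans (mem_filter.1 hy0).2.symm
        have := cix_close hρ e l
        simp only [hp] at this
        linarith) i
      rw [Pi.sub_apply] at h3
      nlinarith [mul_pos hK0 hρ]
  · intro j
    refine hproj j N hN le_rfl 0 _ subset_rfl fun y hy i => ?_
    have := h.bd y (hS₀ hy) i
    simp only [Pi.zero_apply, sub_zero]
    nlinarith [mul_pos hK0 (show 0 < N by linarith)]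
  · intro θ hθ
    refine le_trans ?_ (hF θ hθ)
    refine (Nat.cast_le (α := ℝ)).2 (card_le_card fun f hf => ?_)
    simp only [mem_image] at hf
    obtain ⟨z, hz, rfl⟩ := hf
    exact hτ θ hθ z (mem_image.2 hz)
  · intro θ hθ z hz z' hz' e i
    obtain ⟨y, rfl, a⟩ := hτ' θ hθ z hz
    obtain ⟨y', rfl, a'⟩ := hτ' θ hθ z' hz'
    rw [← e] at a'
    have h1 := abs_le.1 (hG.same_tube a a' i)
    have h2 := hG.same_tube a a' o
    rw [hb θ hθ i] at h1
    rw [hb θ hθ o, hb0 θ hθ] at h2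
    have h3 := abs_le.1 (floor_err (G (X y) i) (G (X y') i))
    have h4 := floor_err (G (X y) o) (G (X y') o)
    set T := (X y o - X y' o) * g θ with hT
    have h5 : |((p y o : ℝ) - p y' o - T) * b θ i| ≤ (K * (2 * K) + 1) * K := by
      rw [abs_mul]
      refine mul_le_mul ?_ (hbK θ hθ i) (abs_nonneg _) (by positivity)
      have b1 := abs_le.1 h2
      have b2 := abs_le.1 h4
      simp only [hp]
      rw [abs_le]; constructor <;> nlinarith [b1.1, b1.2, b2.1, b2.2]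
    have h6 := abs_le.1 h5
    have h7 : K ^ 4 ≤ K ^ (10 * (k + 1)) := hKp (by omega)
    have h8 : (K * (2 * K) + 1) * K + (K * (2 * K) + 1) ≤ K ^ 4 := by
      nlinarith [mul_pos hK0 hK0, mul_pos hK0 (mul_pos hK0 hK0)]
    simp only [hp] at h6 ⊢
    rw [abs_le]; constructor <;> nlinarith [h1.1, h1.2, h3.1, h3.2, h6.1, h6.2]
  · intro v ρ h1 h2
    refine (hfr v ρ h1 h2).trans ?_
    have hρ : 0 < ρ := lt_of_lt_of_le (by positivity) h1
    have : K ≤ K ^ (10 * (k + 1)) := by simpa using hKp (a := 1) (m := 10 * (k + 1)) (by omega)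
    have h3 : 0 ≤ ρ ^ κ := Real.rpow_nonneg hρ.le _
    gcongr

end Crest.Agent.N76.LG
end

-- ▼ part N76/LG/Frame2
section

/-! # Row 76, Lemma G, change of frame, part 2: popularity, window, frame (helper54) -/

set_option autoImplicit false

namespace Crest.Agent.N76.LG

open Finset Function
open Crest.Agent.N76.MK

lemma popular {A : Type} (s : Finset A) (f : A → ℝ) {M η : ℝ} (hM : 0 < M) (hη : 0 ≤ η)
    (hf : ∀ a ∈ s, f a ≤ M) (hs : η * M * s.card ≤ ∑ a ∈ s, f a) :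
    η * s.card ≤ 2 * (s.filter fun a => η * M / 2 ≤ f a).card := by
  classical
  rw [← sum_filter_add_sum_filter_not s (fun a => η * M / 2 ≤ f a)] at hs
  have h1 : ∑ a ∈ s.filter fun a => η * M / 2 ≤ f a, f a ≤
      (s.filter fun a => η * M / 2 ≤ f a).card * M := by
    rw [← nsmul_eq_mul]
    exact sum_le_card_nsmul _ _ _ fun a ha => hf a (mem_filter.1 ha).1
  have h2 : ∑ a ∈ s.filter fun a => ¬ η * M / 2 ≤ f a, f a ≤ s.card * (η * M / 2) := by
    refine (sum_le_card_nsmul _ _ (η * M / 2) fun a ha => (not_le.1 (mem_filter.1 ha).2).le).trans ?_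
    rw [nsmul_eq_mul]
    exact mul_le_mul_of_nonneg_right (by exact_mod_cast card_le_card (filter_subset _ _))
      (by positivity)
  have h3 : M * (η * s.card) ≤ M * (2 * (s.filter fun a => η * M / 2 ≤ f a).card) := by nlinarith
  exact le_of_mul_le_mul_left h3 hM

lemma double_count {A B : Type} (s : Finset A) (t : Finset B) (r : A → B → Prop)
    [∀ a b, Decidable (r a b)] :
    ∑ a ∈ s, ((t.filter fun b => r a b).card : ℝ) = ∑ b ∈ t, ((s.filter fun a => r a b).card : ℝ) := by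
  simp only [card_filter, Nat.cast_sum]
  exact sum_comm

/-- Cauchy–Schwarz selection of a base direction -/
lemma cs_select {A B : Type} (P : Finset A) (hP : P.Nonempty) (Y : Finset B) (hY : Y.Nonempty)
    (r : A → B → Prop) [∀ a b, Decidable (r a b)] {η : ℝ} (hη : 0 ≤ η)
    (h : ∀ a ∈ P, η * Y.card ≤ (Y.filter fun b => r a b).card) :
    ∃ a₀ ∈ P, ∃ P₁ ⊆ P, η ^ 2 * P.card ≤ 2 * P₁.card ∧
      ∀ a ∈ P₁, η ^ 2 * Y.card / 2 ≤ (Y.filter fun b => r a b ∧ r a₀ b).card := by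
  classical
  have hY0 : (0 : ℝ) < Y.card := by exact_mod_cast hY.card_pos
  set n : B → ℝ := fun b => ((P.filter fun a => r a b).card : ℝ) with hn
  have h1 : η * Y.card * P.card ≤ ∑ b ∈ Y, n b := by
    rw [← double_count P Y r, mul_comm, ← nsmul_eq_mul]
    exact card_nsmul_le_sum _ _ _ h
  have h2 : (∑ b ∈ Y, n b) ^ 2 ≤ Y.card * ∑ b ∈ Y, n b ^ 2 := sq_sum_le_card_mul_sum_sq
  have h3 : ∑ a₀ ∈ P, ∑ a ∈ P, ((Y.filter fun b => r a b ∧ r a₀ b).card : ℝ) =
      ∑ b ∈ Y, n b ^ 2 := by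
    simp only [hn, card_filter, Nat.cast_sum, sq, sum_mul_sum]
    rw [sum_comm (s := Y)]
    refine sum_congr rfl fun a₀ _ => ?_
    rw [sum_comm (s := Y)]
    refine sum_congr rfl fun a _ => sum_congr rfl fun b _ => ?_
    by_cases h1 : r a b <;> by_cases h2 : r a₀ b <;> simp [h1, h2]
  have h4 : ∑ _a₀ ∈ P, η ^ 2 * Y.card * P.card ≤
      ∑ a₀ ∈ P, ∑ a ∈ P, ((Y.filter fun b => r a b ∧ r a₀ b).card : ℝ) := by
    rw [h3, sum_const, nsmul_eq_mul]
    have h5 : (η * Y.card * P.card) ^ 2 ≤ (∑ b ∈ Y, n b) ^ 2 :=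
      pow_le_pow_left₀ (by positivity) h1 2
    refine le_of_mul_le_mul_left ?_ hY0
    nlinarith
  obtain ⟨a₀, ha₀, h6⟩ := exists_le_of_sum_le hP h4
  refine ⟨a₀, ha₀, _, filter_subset _ _, popular P _ hY0 (by positivity) (fun a _ => ?_) h6,
    fun a ha => (mem_filter.1 ha).2⟩
  exact_mod_cast card_le_card (filter_subset _ _)

/-- **Frostman window** -/
lemma window {ι : Type} (Q : Finset ι) (hQ : Q.Nonempty) (a : ι → ℝ) {N A κ : ℝ} (hN : 1 ≤ N)
    (hA : 0 ≤ A) (hκ0 : 0 ≤ κ) (hκ1 : κ ≤ 1) (ha : ∀ θ ∈ Q, |a θ| ≤ A)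
    (hinj : Set.InjOn (fun θ => ⌊N * a θ⌋) Q) :
    ∃ P ⊆ Q, ∃ j : ℕ, P.Nonempty ∧ (2 : ℝ) ^ j ≤ N ∧
      (∀ θ ∈ P, ∀ θ' ∈ P, |2 ^ j * (a θ - a θ')| ≤ 1) ∧
      (Q.card : ℝ) ≤ (2 * A + 3) * (5 * (N / 2 ^ j)) * N ^ κ ∧
      ∀ w ρ : ℝ, 2 ^ j / N ≤ ρ → ρ ≤ 1 →
        ((P.filter fun θ => |2 ^ j * a θ - w| ≤ ρ).card : ℝ) ≤ 4 * ρ ^ κ * P.card := by
  classical
  have hN0 : 0 < N := by linarith
  set ok : Finset ι × ℕ → Prop := fun q => (2 : ℝ) ^ q.2 ≤ N ∧
    ∀ θ ∈ q.1, ∀ θ' ∈ q.1, |2 ^ q.2 * (a θ - a θ')| ≤ 1 with hok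
  set Ω := (Q.powerset ×ˢ range ⌈N⌉₊).filter ok with hΩ
  have hmem : ∀ (P : Finset ι) (j : ℕ), P ⊆ Q → ok (P, j) → (P, j) ∈ Ω := by
    intro P j h1 h2
    refine mem_filter.2 ⟨mem_product.2 ⟨mem_powerset.2 h1, mem_range.2 ?_⟩, h2⟩
    have h3 : ((j : ℕ) : ℝ) < 2 ^ j := by exact_mod_cast Nat.lt_two_pow_self
    have h4 : (j : ℝ) < ⌈N⌉₊ := lt_of_lt_of_le h3 (h2.1.trans (Nat.le_ceil N))
    exact_mod_cast h4
  obtain ⟨⟨P, j⟩, hPj, hmax⟩ := exists_max_image Ω
    (fun q => (q.1.card : ℝ) * ((2 : ℝ) ^ q.2) ^ κ) ⟨(∅, 0), hmem ∅ 0 (empty_subset _)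
      ⟨by simpa using hN, by simp⟩⟩
  obtain ⟨h1, h2, h3⟩ : P ⊆ Q ∧ (2 : ℝ) ^ j ≤ N ∧
      ∀ θ ∈ P, ∀ θ' ∈ P, |2 ^ j * (a θ - a θ')| ≤ 1 :=
    ⟨mem_powerset.1 (mem_product.1 (mem_filter.1 hPj).1).1, (mem_filter.1 hPj).2⟩
  have h2j : (0 : ℝ) < 2 ^ j := by positivity
  have h2κ : (0 : ℝ) < ((2 : ℝ) ^ j) ^ κ := Real.rpow_pos_of_pos h2j _
  -- lower bound for the maximum
  have h4 : (Q.card : ℝ) ≤ (P.card * ((2 : ℝ) ^ j) ^ κ) * (2 * A + 3) := by
    refine (card_le_fibres Q (fun θ => ⌊a θ⌋) (M := P.card * ((2 : ℝ) ^ j) ^ κ)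
      fun θ _ => ?_).trans (mul_le_mul_of_nonneg_left ?_ (by positivity))
    · have := hmax _ (hmem (Q.filter fun θ' => ⌊a θ'⌋ = ⌊a θ⌋) 0 (filter_subset _ _)
        ⟨by simpa using hN, fun x hx x' hx' => by
          have := close_of_floor (a x) (a x')
          rw [(mem_filter.1 hx).2, (mem_filter.1 hx').2, sub_self, abs_zero, zero_add] at this
          simpa using this⟩)
      simpa using this
    · refine (card_int_close _ 0 (A + 1) (by linarith) fun v hv => ?_).trans (by linarith)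
      obtain ⟨θ, hθ, rfl⟩ := mem_image.1 hv
      have := floor_close (a θ) 0
      simp only [Int.floor_zero, Int.cast_zero, sub_zero] at this ⊢
      linarith [ha θ hθ]
  have hQ0 : (0 : ℝ) < Q.card := by exact_mod_cast hQ.card_pos
  have hP : P.Nonempty := by
    rw [nonempty_iff_ne_empty]
    rintro rfl
    simp only [card_empty, Nat.cast_zero, zero_mul] at h4
    linarith
  have hU : 1 ≤ N / 2 ^ j := (one_le_div h2j).2 h2
  refine ⟨P, h1, j, hP, h2, h3, ?_, fun w ρ hρ hρ1 => ?_⟩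
  · obtain ⟨θ₀, hθ₀⟩ := hP
    have h5 : (P.card : ℝ) ≤ 5 * (N / 2 ^ j) := by
      rw [← card_image_of_injOn (hinj.mono (coe_subset.2 h1))]
      refine (card_int_close _ ⌊N * a θ₀⌋ (N / 2 ^ j + 1) (by linarith) fun v hv => ?_).trans
        (by linarith)
      obtain ⟨θ, hθ, rfl⟩ := mem_image.1 hv
      refine (floor_close _ _).trans ?_
      have e : N * a θ - N * a θ₀ = N / 2 ^ j * (2 ^ j * (a θ - a θ₀)) := by field_simp
      rw [e, abs_mul, abs_of_pos (by positivity : (0 : ℝ) < N / 2 ^ j)]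
      nlinarith [h3 θ hθ θ₀ hθ₀]
    have h6 : ((2 : ℝ) ^ j) ^ κ ≤ N ^ κ := Real.rpow_le_rpow h2j.le h2 hκ0
    calc (Q.card : ℝ) ≤ (P.card * ((2 : ℝ) ^ j) ^ κ) * (2 * A + 3) := h4
      _ ≤ ((5 * (N / 2 ^ j)) * N ^ κ) * (2 * A + 3) := by gcongr
      _ = _ := by ring
  · have hρ0 : 0 < ρ := lt_of_lt_of_le (by positivity) hρ
    have h4ρ : (4 * ρ) ^ κ ≤ 4 * ρ ^ κ := by
      rw [Real.mul_rpow (by norm_num) hρ0.le]
      refine mul_le_mul_of_nonneg_right ?_ (Real.rpow_nonneg hρ0.le _)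
      simpa using Real.rpow_le_rpow_of_exponent_le (x := 4) (by norm_num) hκ1
    have hP0 : (0 : ℝ) ≤ P.card := Nat.cast_nonneg _
    by_cases hb : 2 * ρ ≤ 1
    · obtain ⟨m, hm1, hm2⟩ := exists_nat_pow_near_of_lt_one (x := 2 * ρ) (y := 1 / 2)
        (by linarith) hb (by norm_num) (by norm_num)
      have h2m : (0 : ℝ) < 2 ^ m := by positivity
      have e1 : (2 : ℝ) ^ m * (2 * ρ) ≤ 1 := by
        rw [one_div, inv_pow, ← one_div, le_div_iff₀ h2m] at hm2; linarith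
      have e2 : 1 ≤ (2 : ℝ) ^ m * (4 * ρ) := by
        rw [one_div, inv_pow, ← one_div, div_lt_iff₀ (by positivity), pow_succ] at hm1; linarith
      have h5 := hmax _ (hmem (P.filter fun θ => |2 ^ j * a θ - w| ≤ ρ) (j + m)
        ((filter_subset _ _).trans h1) ⟨by
          rw [div_le_iff₀ hN0] at hρ
          show (2 : ℝ) ^ (j + m) ≤ N
          rw [pow_add]; nlinarith, fun x hx x' hx' => by
          have b1 := abs_le.1 (mem_filter.1 hx).2
          have b2 := abs_le.1 (mem_filter.1 hx').2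
          have b3 : |2 ^ j * (a x - a x')| ≤ 2 * ρ := by
            rw [abs_le]; constructor <;> linarith [b1.1, b1.2, b2.1, b2.2]
          show |(2 : ℝ) ^ (j + m) * (a x - a x')| ≤ 1
          rw [pow_add, mul_comm ((2 : ℝ) ^ j), mul_assoc, abs_mul, abs_of_pos h2m]
          nlinarith⟩)
      simp only [pow_add] at h5
      rw [Real.mul_rpow h2j.le h2m.le] at h5
      have h6 : ((P.filter fun θ => |2 ^ j * a θ - w| ≤ ρ).card : ℝ) * ((2 : ℝ) ^ m) ^ κ ≤
          P.card := by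
        refine le_of_mul_le_mul_right ?_ h2κ
        linarith
      have h7 : 1 ≤ ((2 : ℝ) ^ m) ^ κ * (4 * ρ) ^ κ := by
        rw [← Real.mul_rpow h2m.le (by positivity)]
        exact Real.one_le_rpow e2 hκ0
      have h8 : 0 ≤ (4 * ρ) ^ κ := Real.rpow_nonneg (by positivity) _
      calc ((P.filter fun θ => |2 ^ j * a θ - w| ≤ ρ).card : ℝ)
          ≤ (P.filter fun θ => |2 ^ j * a θ - w| ≤ ρ).card * (((2 : ℝ) ^ m) ^ κ * (4 * ρ) ^ κ) :=
            le_mul_of_one_le_right (Nat.cast_nonneg _) h7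
        _ ≤ P.card * (4 * ρ) ^ κ := by
            rw [← mul_assoc]; exact mul_le_mul_of_nonneg_right h6 h8
        _ ≤ P.card * (4 * ρ ^ κ) := mul_le_mul_of_nonneg_left h4ρ hP0
        _ = _ := by ring
    · have h5 : 1 ≤ (4 * ρ) ^ κ := Real.one_le_rpow (by linarith) hκ0
      calc ((P.filter fun θ => |2 ^ j * a θ - w| ≤ ρ).card : ℝ) ≤ P.card := by
            exact_mod_cast card_le_card (filter_subset _ _)
        _ ≤ _ := le_mul_of_one_le_left hP0 (h5.trans h4ρ)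

variable {D : Type} [Fintype D] [DecidableEq D]

/-- a popular tuple -/
lemma exists_tuple {α ι : Type} [DecidableEq ι] (Y : Finset α) (Θ : D → Finset ι)
    (I : α → Finset ι) {L : ℝ} (hne : ∀ j, (Θ j).Nonempty)
    (hpop : ∀ y ∈ Y, ∀ j, ((Θ j).card : ℝ) ≤ L * (I y ∩ Θ j).card) :
    ∃ t : D → ι, (∀ j, t j ∈ Θ j) ∧
      (Y.card : ℝ) ≤ L ^ Fintype.card D * (Y.filter fun y => ∀ j, t j ∈ I y).card := by
  classical
  have h1 : ∑ _t ∈ Fintype.piFinset Θ, (Y.card : ℝ) ≤ ∑ t ∈ Fintype.piFinset Θ,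
      L ^ Fintype.card D * (Y.filter fun y => ∀ j, t j ∈ I y).card := by
    rw [← mul_sum, double_count (Fintype.piFinset Θ) Y (fun t y => ∀ j, t j ∈ I y), mul_sum,
      sum_const, nsmul_eq_mul, mul_comm, ← nsmul_eq_mul]
    refine card_nsmul_le_sum _ _ _ fun y hy => ?_
    have e : ((Fintype.piFinset Θ).filter fun t => ∀ j, t j ∈ I y) =
        Fintype.piFinset fun j => I y ∩ Θ j := by
      ext t
      simp only [mem_filter, Fintype.mem_piFinset, mem_inter]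
      exact ⟨fun h j => ⟨h.2 j, h.1 j⟩, fun h => ⟨fun j => (h j).2, fun j => (h j).1⟩⟩
    rw [e, Fintype.card_piFinset, Fintype.card_piFinset]
    push_cast
    rw [← card_univ, ← prod_const, ← prod_mul_distrib]
    exact prod_le_prod (fun j _ => Nat.cast_nonneg _) fun j _ => hpop y hy j
  obtain ⟨t, ht, h2⟩ := exists_le_of_sum_le (Fintype.piFinset_nonempty.2 hne) h1
  exact ⟨t, Fintype.mem_piFinset.1 ht, h2⟩

/-- some coordinate takes many values -/
lemma exists_coord {ι : Type} {k : ℕ} (hk : Fintype.card D = k + 1) (hk1 : 1 ≤ k) (o : D)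
    (T : Finset ι) (φ : ι → D → ℤ) (c : ℤ) (h0 : ∀ θ ∈ T, φ θ o = c) :
    ∃ i, o ≠ i ∧ ∃ Q ⊆ T, Set.InjOn (fun θ => φ θ i) Q ∧ (T.image φ).card ≤ Q.card ^ k := by
  classical
  have hcard : (univ.erase o).card = k := by
    rw [card_erase_of_mem (mem_univ o), card_univ, hk]; rfl
  obtain ⟨i, hi, hmax⟩ := exists_max_image (univ.erase o)
    (fun i => (T.image fun θ => φ θ i).card) (card_pos.1 (by omega))
  obtain ⟨Q, hQ, hinj, him⟩ := exists_subset_injOn_image_eq_of_surjOn (f := fun θ => φ θ i)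
    (T : Set ι) (T.image fun θ => φ θ i) (by rw [coe_image]; exact Set.surjOn_image _ _)
  refine ⟨i, (ne_of_mem_erase hi).symm, Q, coe_subset.1 hQ, hinj, ?_⟩
  rw [← card_image_of_injOn hinj, him]
  have h1 : T.image φ ⊆ Fintype.piFinset fun l => T.image fun θ => φ θ l := by
    intro z hz
    obtain ⟨θ, hθ, rfl⟩ := mem_image.1 hz
    exact Fintype.mem_piFinset.2 fun l => mem_image_of_mem _ hθ
  refine (card_le_card h1).trans ?_
  rw [Fintype.card_piFinset, ← mul_prod_erase univ _ (mem_univ o)]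
  have h2 : (T.image fun θ => φ θ o).card ≤ 1 := by
    refine (card_le_card (t := {c}) fun z hz => ?_).trans (by simp)
    obtain ⟨θ, hθ, rfl⟩ := mem_image.1 hz
    exact mem_singleton.2 (h0 θ hθ)
  calc _ ≤ 1 * (T.image fun θ => φ θ i).card ^ (univ.erase o).card :=
        Nat.mul_le_mul h2 (prod_le_pow_card _ _ _ hmax)
    _ = _ := by rw [one_mul, hcard]

/-- the inverse of a matrix with bounded entries and determinant bounded below -/
lemma exists_frame (B : Matrix D D ℝ) (o : D) {L : ℝ} (hL : 1 ≤ L)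
    (hLd : (Fintype.card D : ℝ) * (Fintype.card D).factorial ≤ L) (hB : ∀ i j, |B i j| ≤ L)
    (hdet : 1 ≤ L * |B.det|) :
    ∃ G : (D → ℝ) →ₗ[ℝ] (D → ℝ), Frm G (L ^ (Fintype.card D + 2)) ∧
      (∀ j i, i ≠ j → G (fun l => B l j) i = 0) ∧
      ∀ w, 1 ≤ L * |(B.updateCol o w).det| → 1 ≤ L ^ (Fintype.card D + 2) * |G w o| := by
  set d := Fintype.card D with hd
  have hL0 : 0 < L := by linarith
  have hd1 : (1 : ℝ) ≤ d := by exact_mod_cast Fintype.card_pos_iff.2 ⟨o⟩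
  have hf1 : (1 : ℝ) ≤ d.factorial := by exact_mod_cast d.factorial_pos
  have hdL : (d : ℝ) ≤ L := by nlinarith
  have hfL : (d.factorial : ℝ) ≤ L := by nlinarith
  have hdet0 : 0 < |B.det| := by
    rcases (abs_nonneg B.det).eq_or_lt with h | h
    · rw [← h] at hdet; linarith
    · exact h
  have hu : IsUnit B.det := isUnit_iff_ne_zero.2 (abs_pos.1 hdet0)
  have hdl : ∀ A : Matrix D D ℝ, (∀ i j, |A i j| ≤ L) → |A.det| ≤ d.factorial * L ^ d := by
    intro A hA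
    simpa using Matrix.det_le (A := A) (abv := AbsoluteValue.abs) (x := L) hA
  have hinv : ∀ i j, |B⁻¹ i j| ≤ d.factorial * L ^ (d + 1) := by
    intro i j
    have h1 : |B.adjugate i j| ≤ d.factorial * L ^ d := by
      rw [Matrix.adjugate_apply]
      refine hdl _ fun a b => ?_
      rw [Matrix.updateRow_apply]
      split_ifs
      · rw [Pi.single_apply]; split_ifs <;> simp [hL, hL0.le]
      · exact hB a b
    rw [Matrix.inv_def, Matrix.smul_apply, Ring.inverse_eq_inv', smul_eq_mul, abs_mul, abs_inv,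
      mul_comm, ← div_eq_mul_inv, div_le_iff₀ hdet0]
    have : (0 : ℝ) ≤ d.factorial * L ^ d := by positivity
    calc _ ≤ d.factorial * L ^ d * 1 := by simpa using h1
      _ ≤ d.factorial * L ^ d * (L * |B.det|) := mul_le_mul_of_nonneg_left hdet this
      _ = _ := by ring
  refine ⟨B⁻¹.mulVecLin, ⟨fun y t hy i => ?_, fun y t hy i => ?_⟩, fun j i hij => ?_,
    fun w hw => ?_⟩
  · have ht : 0 ≤ t := (abs_nonneg _).trans (hy o)
    refine (mulVec_bound _ hinv hy i).trans (mul_le_mul_of_nonneg_right ?_ ht)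
    rw [← hd, ← mul_assoc, pow_succ' L (d + 1)]
    exact mul_le_mul_of_nonneg_right hLd (by positivity)
  · have ht : 0 ≤ t := (abs_nonneg _).trans (hy o)
    have e : y = B.mulVec (B⁻¹.mulVecLin y) := by
      rw [Matrix.mulVecLin_apply, Matrix.mulVec_mulVec, Matrix.mul_nonsing_inv _ hu,
        Matrix.one_mulVec]
    rw [e]
    refine (mulVec_bound _ hB hy i).trans (mul_le_mul_of_nonneg_right ?_ ht)
    calc (Fintype.card D : ℝ) * L ≤ L ^ 2 := by rw [← hd]; nlinarith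
      _ ≤ _ := pow_le_pow_right₀ hL (by omega)
  · have e : (B⁻¹.mulVecLin fun l => B l j) i = (B⁻¹ * B) i j := by
      simp [Matrix.mulVec, dotProduct, Matrix.mul_apply]
    rw [e, Matrix.nonsing_inv_mul _ hu, Matrix.one_apply_ne hij]
  · have e := congrFun (Matrix.det_smul_inv_mulVec_eq_cramer B w hu) o
    rw [Matrix.cramer_apply, Pi.smul_apply, smul_eq_mul] at e
    rw [← e, abs_mul] at hw
    rw [Matrix.mulVecLin_apply]
    have h1 : |B.det| ≤ L * L ^ d :=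
      (hdl B hB).trans (mul_le_mul_of_nonneg_right hfL (by positivity))
    calc (1 : ℝ) ≤ L * (|B.det| * |B⁻¹.mulVec w o|) := hw
      _ ≤ L * ((L * L ^ d) * |B⁻¹.mulVec w o|) := by gcongr
      _ = _ := by ring

omit [Fintype D] [DecidableEq D] in
/-- close slopes give close directions -/
lemma Frm.dir_close {G : (D → ℝ) →ₗ[ℝ] (D → ℝ)} {K δ : ℝ} (hG : Frm G K) (hK : 10 ≤ K) {o : D}
    {w w' : D → ℝ} (hw : ∀ i, |w i| ≤ K) (hw' : ∀ i, |w' i| ≤ K) (h0 : w o = 1) (h0' : w' o = 1)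
    (hg : G w o ≠ 0) (h : ∀ i, |G w i / G w o - G w' i / G w' o| ≤ δ) (i : D) :
    |w i - w' i| ≤ K ^ 5 * δ := by
  have hK0 : 0 < K := by linarith
  have hδ : 0 ≤ δ := (abs_nonneg _).trans (h o)
  have h1 := hG.bw ((G w o)⁻¹ • w - (G w' o)⁻¹ • w') δ (fun l => by
    have := h l
    simp only [map_sub, map_smul, Pi.sub_apply, Pi.smul_apply, smul_eq_mul]
    rwa [div_eq_inv_mul, div_eq_inv_mul] at this)
  simp only [Pi.sub_apply, Pi.smul_apply, smul_eq_mul] at h1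
  have h2 := h1 o
  rw [h0, h0'] at h2
  have e : w i - w' i = G w o * (((G w o)⁻¹ * w i - (G w' o)⁻¹ * w' i) -
      ((G w o)⁻¹ * 1 - (G w' o)⁻¹ * 1) * w' i) := by
    field_simp; ring
  have h3 : |((G w o)⁻¹ * 1 - (G w' o)⁻¹ * 1) * w' i| ≤ K * δ * K := by
    rw [abs_mul]; exact mul_le_mul h2 (hw' i) (abs_nonneg _) (by positivity)
  rw [e, abs_mul]
  calc _ ≤ (K * K) * (K * δ + K * δ * K) :=
        mul_le_mul (hG.fw w K hw o) ((abs_sub _ _).trans (add_le_add (h1 i) h3)) (abs_nonneg _)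
          (by positivity)
    _ = K ^ 3 * (1 + K) * δ := by ring
    _ ≤ K ^ 3 * K ^ 2 * δ := by gcongr; nlinarith
    _ = _ := by ring

omit [Fintype D] [DecidableEq D] in
/-- shear of a frame -/
lemma Frm.shear {G : (D → ℝ) →ₗ[ℝ] (D → ℝ)} {K A : ℝ} (hG : Frm G K) (o : D)
    (β : D → ℝ) (hβ : ∀ i, |β i| ≤ A) (hβ0 : β o = 0) :
    ∃ G' : (D → ℝ) →ₗ[ℝ] (D → ℝ), Frm G' (K * (1 + A)) ∧ ∀ y i, G' y i = G y i - β i * G y o := by
  refine ⟨{ toFun := fun y i => G y i - β i * G y o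
            map_add' := fun x y => by funext i; simp only [map_add, Pi.add_apply]; ring
            map_smul' := fun c y => by
              funext i; simp only [map_smul, Pi.smul_apply, smul_eq_mul, RingHom.id_apply]; ring },
    ⟨fun y t hy i => ?_, fun y t hy i => ?_⟩, fun _ _ => rfl⟩
  · show |G y i - β i * G y o| ≤ _
    have h1 : |β i * G y o| ≤ A * (K * t) := by
      rw [abs_mul]
      exact mul_le_mul (hβ i) (hG.fw y t hy o) (abs_nonneg _) ((abs_nonneg _).trans (hβ i))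
    refine (abs_sub _ _).trans ?_
    linarith [hG.fw y t hy i]
  · replace hy : ∀ l, |G y l - β l * G y o| ≤ t := hy
    have h0 := hy o
    rw [hβ0, zero_mul, sub_zero] at h0
    have := hG.bw y ((1 + A) * t) (fun l => by
      have h1 : |β l * G y o| ≤ A * t := by
        rw [abs_mul]
        exact mul_le_mul (hβ l) h0 (abs_nonneg _) ((abs_nonneg _).trans (hβ l))
      have h2 := abs_le.1 h1
      have h3 := abs_le.1 (hy l)
      rw [abs_le]; constructor <;> linarith [h2.1, h2.2, h3.1, h3.2]) i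
    linarith

end Crest.Agent.N76.LG
end

-- ▼ part N76/LG/Frame

/-! # Row 76, Lemma G: reduction of `L.LemG` to the lattice form `LemGZ` (helper54) -/

set_option autoImplicit false

namespace Crest.Agent.N76.LG

open Finset Function
open Crest.Agent.N76.MK

section
variable {D : Type} [Fintype D] [DecidableEq D]

omit [Fintype D] [DecidableEq D] in
lemma Frm.mono {G : (D → ℝ) →ₗ[ℝ] (D → ℝ)} {K K' : ℝ} (hG : Frm G K) (h : K ≤ K') : Frm G K' :=
  ⟨fun y t hy i => (hG.fw y t hy i).trans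
      (mul_le_mul_of_nonneg_right h ((abs_nonneg _).trans (hy i))),
    fun y t hy i => (hG.bw y t hy i).trans
      (mul_le_mul_of_nonneg_right h ((abs_nonneg _).trans (hy i)))⟩

/-- steps 1–4 of the proof of Lemma G -/
theorem hypZ_of_HG {α ι : Type} {k : ℕ} (hk : Fintype.card D = k + 1) (hk1 : 1 ≤ k) {o : D}
    {N s c L κ : ℝ} {Y : Finset α} {X : α → D → ℝ} {Θ : D → Finset ι} {u : ι → D → ℝ}
    {I : α → Finset ι} (hL : HG k o N s c L Y X Θ u I) (hL10 : 10 ≤ L)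
    (hLd : (Fintype.card D : ℝ) * (Fintype.card D).factorial ≤ L) (hN : 1 ≤ N) (hκ0 : 0 ≤ κ)
    (hκ1 : κ ≤ 1) :
    ∃ (i1 : D) (j₀ : ℕ) (YZ : Finset (D → ℤ)) (P : Finset ι) (b : ι → D → ℝ)
      (W : ι → Finset (D → ℤ)) (τ : ι → (D → ℤ) → (D → ℝ)), o ≠ i1 ∧
      N ^ c ≤ L ^ ((k + 3) * (50 * (k + 1))) * ((N / 2 ^ j₀) ^ k * (N ^ κ) ^ k) ∧
      HypZ k o i1 N s κ (L ^ ((k + 3) * (50 * (k + 1)))) (2 ^ j₀) YZ P b W τ := by
  classical
  have hN0 : 0 < N := by linarith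
  obtain ⟨t, ht, hY1⟩ := exists_tuple Y Θ I hL.ne (by convert hL.pop)
  obtain ⟨G, hG, hax, hg⟩ := exists_frame (Matrix.of fun i j => u (t j) i) o (by linarith) hLd
    (fun i j => hL.ub j _ (ht j) i) (hL.det t ht)
  have hg' : ∀ θ ∈ Θ o, 1 ≤ L ^ (Fintype.card D + 2) * |G (u θ) o| := by
    intro θ hθ
    refine hg _ ?_
    have := hL.det (update t o θ) fun j => by
      by_cases hj : j = o
      · subst hj; simpa using hθ
      · rw [update_of_ne hj]; exact ht j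
    convert this using 4
    ext i j
    by_cases hj : j = o
    · subst hj; simp
    · simp [Matrix.updateCol_ne hj, update_of_ne hj]
  rw [hk] at hG hg' hY1
  rw [pow_mul]
  have hLK : L ≤ L ^ (k + 1 + 2) := le_self_pow₀ (by linarith) (by omega)
  replace hY1 := hY1.trans (mul_le_mul_of_nonneg_right
    (pow_le_pow_right₀ (by linarith : 1 ≤ L) (by omega : k + 1 ≤ k + 1 + 2)) (Nat.cast_nonneg _))
  have h := hL.mono hN0.le hLK
  have hK : 10 ≤ L ^ (k + 1 + 2) := hL10.trans hLK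
  generalize L ^ (k + 1 + 2) = K at *
  clear hL hLK hg hLd hL10
  have hK0 : 0 < K := by linarith
  have hK1 : 1 ≤ K := by linarith
  have hKp : ∀ {a m : ℕ}, a ≤ m → K ^ a ≤ K ^ m := fun hm => pow_le_pow_right₀ hK1 hm
  set Y1 := Y.filter fun y => ∀ j, t j ∈ I y with hY1d
  have hY0 : (0 : ℝ) < Y.card := by
    have h1 : 0 < (N ^ s) ^ (k + 1) := pow_pos (Real.rpow_pos_of_pos hN0 _) _
    exact (mul_pos_iff_of_pos_left hK0).1 (h1.trans_le h.big)
  have hY10 : (0 : ℝ) < Y1.card := (mul_pos_iff_of_pos_left hK0).1 (hY0.trans_le hY1)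
  -- popular directions
  have hpop := popular (Θ o) (fun θ => ((Y1.filter fun y => θ ∈ I y).card : ℝ)) (η := 1 / K) hY10
    (by positivity) (fun θ _ => by exact_mod_cast card_le_card (filter_subset _ _)) (by
      rw [double_count (Θ o) Y1 (fun θ y => θ ∈ I y), mul_comm (1 / K), mul_assoc, ← nsmul_eq_mul]
      refine card_nsmul_le_sum _ _ _ fun y hy => ?_
      have h1 := h.pop y (mem_filter.1 hy).1 o
      rw [filter_mem_eq_inter, inter_comm, one_div, ← div_eq_inv_mul, div_le_iff₀ hK0, mul_comm]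
      convert h1)
  set T := (Θ o).filter fun θ => 1 / K * Y1.card / 2 ≤ ((Y1.filter fun y => θ ∈ I y).card : ℝ)
    with hT
  have hTΘ : T ⊆ Θ o := filter_subset _ _
  -- slopes
  set al : ι → D → ℝ := fun θ i => G (u θ) i / G (u θ) o with hal
  have hg0 : ∀ θ ∈ Θ o, G (u θ) o ≠ 0 := fun θ hθ h0 => by
    have := hg' θ hθ
    rw [h0, abs_zero, mul_zero] at this
    linarith
  have hal0 : ∀ θ ∈ Θ o, al θ o = 1 := fun θ hθ => div_self (hg0 θ hθ)
  have halK : ∀ θ ∈ Θ o, ∀ i, |al θ i| ≤ K ^ 3 := by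
    intro θ hθ i
    rw [hal, abs_div, div_le_iff₀ (abs_pos.2 (hg0 θ hθ))]
    calc _ ≤ K * K * 1 := by simpa using hG.fw _ K (h.ub o θ hθ) i
      _ ≤ K * K * (K * |G (u θ) o|) := mul_le_mul_of_nonneg_left (hg' θ hθ) (by positivity)
      _ = _ := by ring
  have hmul : (T.card : ℝ) ≤ K ^ (6 * (k + 1) + 1) * (T.image fun θ i => ⌊N * al θ i⌋).card := by
    refine card_le_fibres T _ fun θ hθ => ?_
    have := h.multd.card_le (ρ := K ^ 5) (one_le_pow₀ hK1) (fun i => N * u θ i)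
      (T.filter fun θ' => (fun i => ⌊N * al θ' i⌋) = fun i => ⌊N * al θ i⌋)
      ((filter_subset _ _).trans hTΘ) fun θ' hθ' i => by
        have h1 := hG.dir_close hK (δ := 1 / N) (h.ub o θ' (hTΘ (mem_filter.1 hθ').1))
          (h.ub o θ (hTΘ hθ)) (h.u0 θ') (h.u0 θ) (hg0 θ' (hTΘ (mem_filter.1 hθ').1)) (fun l => by
            have h2 := close_of_floor (N * al θ' l) (N * al θ l)
            rw [congrFun (mem_filter.1 hθ').2 l, sub_self, abs_zero, zero_add, ← mul_sub, abs_mul,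
              abs_of_pos hN0] at h2
            rw [le_div_iff₀ hN0, mul_comm]
            exact h2) i
        rw [← mul_sub, abs_mul, abs_of_pos hN0, mul_comm, ← le_div_iff₀ hN0, div_eq_mul_one_div]
        exact h1
    refine this.trans ?_
    rw [pow_succ' K (6 * (k + 1)), hk]
    exact mul_le_mul_of_nonneg_left (pow_le_big hK (a := 5) (d := k + 1) (m := 6 * (k + 1))
      (by positivity) le_rfl (by omega)) hK0.le
  obtain ⟨i1, hi1, Q, hQT, hinj, hQc⟩ := exists_coord hk hk1 o T (fun θ i => ⌊N * al θ i⌋) ⌊N⌋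
    (fun θ hθ => by rw [hal0 θ (hTΘ hθ), mul_one])
  have hΘQ : ((Θ o).card : ℝ) ≤ K ^ (6 * (k + 1) + 3) * (Q.card : ℝ) ^ k := by
    rw [one_div, ← div_eq_inv_mul, div_le_iff₀ hK0] at hpop
    have h1 : ((T.image fun θ i => ⌊N * al θ i⌋).card : ℝ) ≤ (Q.card : ℝ) ^ k := by
      exact_mod_cast hQc
    calc ((Θ o).card : ℝ) ≤ (2 * K) * T.card := by linarith
      _ ≤ K ^ 2 * (K ^ (6 * (k + 1) + 1) * (Q.card : ℝ) ^ k) :=
          mul_le_mul (by nlinarith) (hmul.trans (mul_le_mul_of_nonneg_left h1 (by positivity)))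
            (Nat.cast_nonneg _) (by positivity)
      _ = _ := by ring
  have hQ : Q.Nonempty := by
    rw [nonempty_iff_ne_empty]
    rintro rfl
    have h1 : (0 : ℝ) < (Θ o).card := by exact_mod_cast (h.ne o).card_pos
    rw [card_empty, Nat.cast_zero, zero_pow (by omega), mul_zero] at hΘQ
    linarith
  obtain ⟨P, hPQ, j₀, hP, hj₀, hsl, hQP, hfr⟩ := window Q hQ (fun θ => al θ i1) hN
    (A := K ^ 3) (by positivity) hκ0 hκ1 (fun θ hθ => halK θ (hTΘ (hQT hθ)) i1) hinj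
  obtain ⟨θ₀, hθ₀, P₁, hP₁, hP₁c, hS⟩ := cs_select P hP Y1 (card_pos.1 (by exact_mod_cast hY10))
    (fun θ y => θ ∈ I y) (η := 1 / (2 * K)) (by positivity) fun θ hθ => by
      have := (mem_filter.1 (hQT (hPQ hθ))).2
      refine le_trans (le_of_eq ?_) this
      field_simp
  have hPΘ : P ⊆ Θ o := hPQ.trans (hQT.trans hTΘ)
  have hPP₁ : (P.card : ℝ) ≤ 8 * K ^ 2 * P₁.card := by
    rw [div_pow, one_pow, one_div, ← div_eq_inv_mul, div_le_iff₀ (by positivity)] at hP₁c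
    linarith
  set β : D → ℝ := fun l => if l = o then 0 else al θ₀ l with hβ
  have hβK : ∀ l, |β l| ≤ K ^ 3 := fun l => by
    simp only [hβ]
    split_ifs
    · simp only [abs_zero]; positivity
    · exact halK θ₀ (hPΘ hθ₀) l
  obtain ⟨G', hG', hG'e⟩ := hG.shear o β hβK (by simp [hβ])
  have hK5 : K ≤ K ^ 5 := le_self_pow₀ hK1 (by omega)
  have hK3 : 0 < K ^ 3 := by positivity
  have hK31 : 1 ≤ K ^ 3 := one_le_pow₀ hK1
  obtain ⟨YZ, W, τ, hZ⟩ := hypZ_of hk (i1 := i1) (κ := κ) (ρ₀ := 2 ^ j₀) (h.mono hN0.le hK5)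
    (hK.trans hK5) hN (hG'.mono (K' := K ^ 5) (by
      calc K * (1 + K ^ 3) ≤ K * (K * K ^ 3) := by gcongr; nlinarith
        _ = _ := by ring))
    (update t o θ₀) (fun j => by
      by_cases hj : j = o
      · subst hj; simpa using hPΘ hθ₀
      · rw [update_of_ne hj]; exact ht j)
    (fun j i hij => by
      rw [hG'e]
      by_cases hj : j = o
      · subst hj
        simp only [update_self, hβ, if_neg hij, hal]
        rw [div_mul_cancel₀ _ (hg0 θ₀ (hPΘ hθ₀)), sub_self]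
      · rw [update_of_ne hj]
        have a1 : G (u (t j)) i = 0 := hax j i hij
        have a2 : G (u (t j)) o = 0 := hax j o (Ne.symm hj)
        rw [a1, a2, mul_zero, sub_zero])
    (Y1.filter fun y => θ₀ ∈ I y) ((filter_subset _ _).trans (filter_subset _ _))
    (fun y hy j => by
      by_cases hj : j = o
      · subst hj; simpa using (mem_filter.1 hy).2
      · rw [update_of_ne hj]; exact (mem_filter.1 (mem_filter.1 hy).1).2 j)
    P₁ (by
      rw [nonempty_iff_ne_empty]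
      rintro rfl
      have h1 : (0 : ℝ) < P.card := by exact_mod_cast hP.card_pos
      rw [card_empty, Nat.cast_zero, mul_zero] at hPP₁
      linarith)
    (hP₁.trans hPΘ) (fun θ => Y1.filter fun y => θ ∈ I y ∧ θ₀ ∈ I y)
    (fun θ _ y hy => mem_filter.2 ⟨(mem_filter.1 hy).1, (mem_filter.1 hy).2.2⟩)
    (fun θ _ y hy => (mem_filter.1 hy).2.1)
    (fun θ hθ => by
      have h1 := hS θ hθ
      rw [div_pow, one_pow, one_div, ← div_eq_inv_mul, div_div, div_le_iff₀ (by positivity)] at h1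
      calc (Y.card : ℝ) ≤ K * Y1.card := hY1
        _ ≤ K * (((Y1.filter fun y => θ ∈ I y ∧ θ₀ ∈ I y).card : ℝ) * ((2 * K) ^ 2 * 2)) :=
            mul_le_mul_of_nonneg_left h1 hK0.le
        _ = (8 * K ^ 3) * ((Y1.filter fun y => θ ∈ I y ∧ θ₀ ∈ I y).card : ℝ) := by ring
        _ ≤ _ := by
            refine mul_le_mul_of_nonneg_right ?_ (Nat.cast_nonneg _)
            calc 8 * K ^ 3 ≤ K ^ 2 * K ^ 3 := by gcongr; nlinarith
              _ = _ := by ring)
    (fun θ i => al θ i - β i) (fun θ => G (u θ) o)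
    (fun θ hθ i => by
      rw [hG'e, mul_sub, hal, mul_div_cancel₀ _ (hg0 θ (hPΘ (hP₁ hθ))), mul_comm])
    (fun θ hθ => by simp [hβ, hal0 θ (hPΘ (hP₁ hθ))])
    (fun θ hθ i => by
      refine (abs_sub _ _).trans ((add_le_add (halK θ (hPΘ (hP₁ hθ)) i) (hβK i)).trans ?_)
      calc K ^ 3 + K ^ 3 = 2 * K ^ 3 := by ring
        _ ≤ K ^ 2 * K ^ 3 := by gcongr; nlinarith
        _ = _ := by ring)
    (fun θ hθ => by
      simp only [hβ, if_neg (Ne.symm hi1)]
      exact hsl θ (hP₁ hθ) θ₀ hθ₀)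
    (by positivity)
    (fun v ρ h1 h2 => by
      have hρ : 0 < ρ := lt_of_lt_of_le (by positivity) h1
      have hρκ : 0 ≤ ρ ^ κ := Real.rpow_nonneg hρ.le _
      have h3 := hfr (v i1 + 2 ^ j₀ * β i1) ρ h1 h2
      refine le_trans ?_ (h3.trans ?_)
      · refine (Nat.cast_le (α := ℝ)).2 (card_le_card fun θ hθ => ?_)
        simp only [mem_filter, mem_singleton, forall_eq] at hθ ⊢
        refine ⟨hP₁ hθ.1, ?_⟩
        convert hθ.2 using 2
        ring
      · calc 4 * ρ ^ κ * P.card ≤ 4 * ρ ^ κ * (8 * K ^ 2 * P₁.card) := by gcongr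
          _ = (32 * K ^ 2) * ρ ^ κ * P₁.card := by ring
          _ ≤ (K ^ 3 * K ^ 2) * ρ ^ κ * P₁.card := by
              gcongr
              calc (32 : ℝ) ≤ 10 ^ 3 := by norm_num
                _ ≤ K ^ 3 := by gcongr
          _ = _ := by ring)
  refine ⟨i1, j₀, YZ, P₁, fun θ i => al θ i - β i, W, τ, hi1, ?_, ?_⟩
  · have hU : 0 < N / 2 ^ j₀ := by positivity
    have hNκ : 0 < N ^ κ := Real.rpow_pos_of_pos hN0 _
    have h1 : (Q.card : ℝ) ≤ K ^ 5 * (N / 2 ^ j₀ * N ^ κ) := by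
      calc (Q.card : ℝ) ≤ _ := hQP
        _ = (5 * (2 * K ^ 3 + 3)) * (N / 2 ^ j₀ * N ^ κ) := by ring
        _ ≤ (K ^ 2 * K ^ 3) * (N / 2 ^ j₀ * N ^ κ) := by
            refine mul_le_mul_of_nonneg_right ?_ (by positivity)
            have : 25 * K ^ 3 ≤ K ^ 2 * K ^ 3 := by gcongr; nlinarith
            linarith
        _ = _ := by ring
    calc N ^ c ≤ (Θ o).card := h.many
      _ ≤ K ^ (6 * (k + 1) + 3) * (K ^ 5 * (N / 2 ^ j₀ * N ^ κ)) ^ k :=
          hΘQ.trans (by gcongr)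
      _ = K ^ (6 * (k + 1) + 3 + 5 * k) * ((N / 2 ^ j₀) ^ k * (N ^ κ) ^ k) := by
          rw [mul_pow, mul_pow, ← pow_mul]; ring
      _ ≤ _ := mul_le_mul_of_nonneg_right (hKp (by omega)) (by positivity)
  · convert hZ using 1
    rw [← pow_mul]; congr 1; ring

end

/-- **Lemma G from its lattice form** -/
theorem lemG_of (k : ℕ) (hk : 1 ≤ k) (h : LemGZ (Fin (k + 1)) k) : L.LemG k := by
  classical
  intro c hc
  by_cases hc1 : 1 < c
  · exact ⟨1, 0, one_pos, fun N σ Λ _ h1 h2 => by linarith⟩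
  have hkR : (1 : ℝ) ≤ k := by exact_mod_cast hk
  obtain ⟨ε, N₀, hε, H⟩ := h c (c / (2 * k)) (c / (4 * k)) hc (by positivity)
    (by rw [div_lt_one (by positivity)]; linarith) (by positivity)
  set M : ℕ := (k + 3) * (50 * (k + 1)) with hM
  have hM0 : (0 : ℝ) < M := by rw [hM]; positivity
  set ε' := min ε (c / 4) / M with hε'
  have hε'0 : 0 < ε' := div_pos (lt_min hε (by positivity)) hM0
  set C : ℝ := 10 + ((k + 1 : ℕ) : ℝ) * (k + 1).factorial with hC
  have hC10 : 10 ≤ C := by rw [hC]; exact le_add_of_nonneg_right (by positivity)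
  refine ⟨ε', max N₀ (C ^ (1 / ε')), hε'0, ?_⟩
  intro N σ Λ hN hσ1 hσ2 hΛ1 hΛ α ι Y x τ Θ v I a1 a2 a3 a4 a5 a6 a7 a8 a9 a10 a11
  have hN1 : 1 ≤ N := (Real.one_le_rpow (by linarith) (by positivity)).trans
    ((le_max_right _ _).trans hN)
  have hN0 : 0 < N := by linarith
  have hCL : C ≤ N ^ ε' := by
    have := Real.rpow_le_rpow (by positivity) ((le_max_right _ _).trans hN) hε'0.le
    rwa [← Real.rpow_mul (by linarith), one_div_mul_cancel hε'0.ne', Real.rpow_one] at this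
  have hpow : ∀ (ρ : ℝ) (m : ℕ), 0 ≤ ρ → (ρ ^ σ) ^ m = ρ ^ ((m : ℝ) * σ) := fun ρ m hρ => by
    rw [← Real.rpow_natCast, ← Real.rpow_mul hρ, mul_comm]
  have hG : HG k (0 : Fin (k + 1)) N σ c Λ Y (fun y => Fin.cons (τ y) (x y)) Θ
      (fun θ => Fin.cons 1 (v θ)) I := by
    refine ⟨fun y hy i => ?_, ?_, fun z => ?_, fun ρ h1 h2 => ?_, a5, by convert a6, a7,
      fun z => ?_, fun θ => rfl, fun j θ hθ i => ?_, a10, fun j θ hθ ρ h1 h2 z => ?_⟩
    · refine Fin.cases ?_ (fun l => ?_) i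
      · exact (a1 y hy).1
      · exact (a1 y hy).2 l
    · rw [hpow _ _ hN0.le]; push_cast; exact a2
    · refine le_trans ?_ (a3 (fun l => z l.succ) (z 0))
      refine (Nat.cast_le (α := ℝ)).2 (card_le_card fun y hy => ?_)
      simp only [mem_filter] at hy ⊢
      exact ⟨hy.1, hy.2 0, fun l => hy.2 l.succ⟩
    · obtain ⟨F, hF, hF'⟩ := a4 ρ h1 h2
      refine ⟨F.image fun f => Fin.cons f.2 f.1, le_trans ?_ hF, fun y hy => ?_⟩
      · rw [hpow _ _ (by linarith)]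
        push_cast
        exact mul_le_mul_of_nonneg_right (by exact_mod_cast card_image_le)
          (Real.rpow_nonneg (by linarith) _)
      · obtain ⟨f, hf, b1, b2⟩ := hF' y hy
        refine ⟨_, mem_image_of_mem _ hf, fun i => ?_⟩
        refine Fin.cases ?_ (fun l => ?_) i
        · exact b1
        · exact b2 l
    · refine le_trans ?_ (a8 fun l => z l.succ / N)
      refine (Nat.cast_le (α := ℝ)).2 (card_le_card fun θ hθ => ?_)
      simp only [mem_filter] at hθ ⊢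
      refine ⟨hθ.1, fun l => ?_⟩
      have b1 : |N * v θ l - z l.succ| ≤ 1 := hθ.2 l.succ
      have e : v θ l - z l.succ / N = (N * v θ l - z l.succ) / N := by field_simp
      rw [e, abs_div, abs_of_pos hN0]
      exact div_le_div_of_nonneg_right b1 hN0.le
    · refine Fin.cases ?_ (fun l => ?_) i
      · simpa using hΛ1
      · exact a9 j θ hθ l
    · obtain ⟨F, hF, hF'⟩ := a11 j θ hθ ρ h1 h2 (fun l => z l.succ) (z 0)
      refine ⟨F.image fun g => Fin.cons 0 g, le_trans ?_ (hF.trans (le_of_eq ?_)),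
        fun y hy hI hz => ?_⟩
      · exact_mod_cast card_image_le
      · rw [hpow _ _ (by linarith)]
      · obtain ⟨g, hg, b1⟩ := hF' y hy hI (hz 0) fun l => hz l.succ
        refine ⟨_, mem_image_of_mem _ hg, fun i => ?_⟩
        refine Fin.cases ?_ (fun l => ?_) i
        · simp only [Fin.cons_zero, mul_one, sub_self, abs_zero]; linarith
        · exact b1 l
  obtain ⟨i1, j₀, YZ, P, b, W, τ', hi, hU, hZ⟩ := hypZ_of_HG (Fintype.card_fin _) hk
    (hG.mono hN0.le hΛ) (hC10.trans hCL) (κ := c / (2 * k))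
    (by rw [Fintype.card_fin]; refine le_trans ?_ hCL; rw [hC]; linarith) hN1 (by positivity)
    (by rw [div_le_one (by positivity)]; linarith)
  rw [← hM] at hU hZ
  have hLM : (N ^ ε') ^ M = N ^ min ε (c / 4) := by
    rw [← Real.rpow_natCast, ← Real.rpow_mul hN0.le, hε', div_mul_cancel₀ _ hM0.ne']
  rw [hLM] at hU hZ
  refine H _ _ 0 i1 N σ _ j₀ YZ P b W τ' hi ((le_max_left _ _).trans hN) hσ1 hσ2
    (Real.one_le_rpow hN1 (lt_min hε (by positivity)).le)
    (Real.rpow_le_rpow_of_exponent_le hN1 (min_le_left _ _)) ?_ hZ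
  have e : ∀ a : ℝ, (N ^ (a / k)) ^ k = N ^ a := fun a => by
    rw [← Real.rpow_natCast, ← Real.rpow_mul hN0.le, div_mul_cancel₀ _ (by positivity)]
  refine le_of_pow_le_pow_left₀ (n := k) (by omega) (by positivity) ?_
  rw [← div_div, e] at hU ⊢
  have h1 : N ^ min ε (c / 4) ≤ N ^ (c / 4) :=
    Real.rpow_le_rpow_of_exponent_le hN1 (min_le_right _ _)
  have h2 : N ^ c = N ^ (c / 4) * (N ^ (c / 4) * N ^ (c / 2)) := by
    rw [← Real.rpow_add hN0, ← Real.rpow_add hN0]; congr 1; ring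
  have h3 : 0 < N ^ (c / 4) := Real.rpow_pos_of_pos hN0 _
  have h4 : 0 < N ^ (c / 2) := Real.rpow_pos_of_pos hN0 _
  have h5 := hU.trans (mul_le_mul_of_nonneg_right h1 (by positivity))
  rw [h2] at h5
  exact le_of_mul_le_mul_right (le_of_mul_le_mul_left h5 h3) h4

end Crest.Agent.N76.LG
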