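import Crest.Agent.N76.LG.ZDefs

-- ▼ part N76/LG/Z1
section

/-! # Row 76, Lemma G (lattice form), part 1: rich cells, slabs, blocks (helper96) -/

set_option autoImplicit false

namespace Crest.Agent.N76.LG

open Finset Function
open Crest.Agent.N76.MK

variable {D : Type*} [Fintype D] [DecidableEq D]

lemma lw_pow {k : ℕ} (hk : Fintype.card D = k + 1) (hk1 : 1 ≤ k) (Y : Finset (D → ℤ)) :
    (Y.card : ℝ) ^ k ≤ ∏ j, ((prj j Y).card : ℝ) := by
  have hkR : (0 : ℝ) < k := by exact_mod_cast hk1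
  refine (pow_le_pow_left₀ (Nat.cast_nonneg _) (lw_set hk hk1 Y) k).trans (le_of_eq ?_)
  rw [← prod_pow]
  refine prod_congr rfl fun j _ => ?_
  rw [← Real.rpow_natCast, ← Real.rpow_mul (Nat.cast_nonneg _), one_div_mul_cancel hkR.ne',
    Real.rpow_one]

lemma card_le_of_prj {k : ℕ} (hk : Fintype.card D = k + 1) (hk1 : 1 ≤ k) (Y : Finset (D → ℤ))
    {Λ S : ℝ} (hΛ : 1 ≤ Λ) (hS : 0 ≤ S) (h : ∀ j, ((prj j Y).card : ℝ) ≤ Λ * S ^ k) :
    (Y.card : ℝ) ≤ Λ ^ 2 * S ^ (k + 1) := by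
  have h1 := (lw_pow hk hk1 Y).trans (prod_le_prod (fun j _ => Nat.cast_nonneg _) fun j _ => h j)
  rw [prod_const, card_univ, hk] at h1
  refine (pow_le_pow_iff_left₀ (Nat.cast_nonneg _) (by positivity) (n := k) (by omega)).1
    (h1.trans ?_)
  have h3 : Λ ^ (k + 1) ≤ (Λ ^ 2) ^ k := by
    rw [← pow_mul]; exact pow_le_pow_right₀ hΛ (by omega)
  calc _ = Λ ^ (k + 1) * (S ^ (k + 1)) ^ k := by ring
    _ ≤ (Λ ^ 2) ^ k * (S ^ (k + 1)) ^ k := by gcongr
    _ = _ := by ring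

lemma prj_ge {k : ℕ} (hk : Fintype.card D = k + 1) (hk1 : 1 ≤ k) (Y : Finset (D → ℤ))
    {Λ S η : ℝ} (hΛ : 0 < Λ) (hS : 0 < S) (hη : 0 ≤ η) (h : ∀ j, ((prj j Y).card : ℝ) ≤ Λ * S ^ k)
    (hY : η * S ^ (k + 1) ≤ Y.card) (j : D) : (η / Λ) ^ k * S ^ k ≤ (prj j Y).card := by
  have h1 := lw_pow hk hk1 Y
  have hcard : (univ.erase j).card = k := by
    rw [card_erase_of_mem (mem_univ j), card_univ, hk]; rfl
  rw [← mul_prod_erase univ _ (mem_univ j)] at h1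
  have h2 : ∏ i ∈ univ.erase j, ((prj i Y).card : ℝ) ≤ (Λ * S ^ k) ^ k := by
    rw [← hcard, ← prod_const, hcard]
    exact prod_le_prod (fun _ _ => Nat.cast_nonneg _) fun i _ => h i
  have h3 := (pow_le_pow_left₀ (by positivity) hY k).trans
    (h1.trans (mul_le_mul_of_nonneg_left h2 (Nat.cast_nonneg _)))
  refine le_of_mul_le_mul_right (le_trans (le_of_eq ?_) h3) (show 0 < (Λ * S ^ k) ^ k by positivity)
  rw [div_pow, mul_pow, mul_pow]
  field_simp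
  ring

omit [Fintype D] [DecidableEq D] in
lemma cel_pow (i : ℕ) (y : D → ℤ) (l : D) : cel (2 ^ i) y l = y l / 2 ^ i := by
  have := Int.floor_div_natCast (y l : ℝ) (2 ^ i)
  simp only [cel]
  push_cast at this
  rw [this, Int.floor_intCast]

omit [Fintype D] in
lemma cel_update (ρ : ℝ) (y : D → ℤ) (j : D) : cel ρ (update y j 0) = update (cel ρ y) j 0 := by
  funext i
  by_cases h : i = j
  · subst h; simp [cel]
  · simp [cel, update_of_ne h]

/-- a fibrewise bound -/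
lemma card_le_mul_of_fib {α γ : Type*} [DecidableEq γ] (X : Finset α) (f : α → γ) (t : Finset γ)
    (hf : ∀ a ∈ X, f a ∈ t) {M : ℝ} (h : ∀ c ∈ t, ((X.filter fun a => f a = c).card : ℝ) ≤ M) :
    (X.card : ℝ) ≤ t.card * M := by
  rw [card_eq_sum_card_fiberwise (f := f) (t := t) hf]
  push_cast
  rw [← nsmul_eq_mul]
  exact sum_le_card_nsmul _ _ _ h

/-- a fibrewise lower bound -/
lemma mul_le_card_of_fib {α γ : Type*} [DecidableEq γ] (X : Finset α) (f : α → γ) (t : Finset γ)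
    {M : ℝ} (h : ∀ c ∈ t, M ≤ ((X.filter fun a => f a = c).card : ℝ)) :
    t.card * M ≤ (X.card : ℝ) := by
  classical
  calc _ ≤ ∑ c ∈ t, ((X.filter fun a => f a = c).card : ℝ) := by
        rw [← nsmul_eq_mul]; exact card_nsmul_le_sum _ _ _ h
    _ = ((t.biUnion fun c => X.filter fun a => f a = c).card : ℝ) := by
        rw [card_biUnion]
        · push_cast; rfl
        · intro c _ c' _ hne
          exact disjoint_filter.2 fun a _ h1 h2 => hne (h1.symm.trans h2)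
    _ ≤ _ := by exact_mod_cast card_le_card (biUnion_subset.2 fun c _ => filter_subset _ _)

/-- constants -/
def k1 (k : ℕ) (Λ : ℝ) : ℝ := Λ * (10 * Λ ^ 6) ^ k
def k2 (k : ℕ) (Λ : ℝ) : ℝ := k1 k Λ * Λ ^ 2
def k3 (k : ℕ) (Λ : ℝ) : ℝ := Λ ^ 3 * (30 * (k + 1) * k2 k Λ * Λ) ^ k
def k4 (k : ℕ) (Λ : ℝ) : ℝ := 30 * Λ ^ 2 * k3 k Λ * k2 k Λ

lemma one_le_k1 (k : ℕ) {Λ : ℝ} (h : 1 ≤ Λ) : 1 ≤ k1 k Λ :=
  one_le_mul_of_one_le_of_one_le h (one_le_pow₀ (by nlinarith [one_le_pow₀ (n := 6) h]))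
lemma one_le_k2 (k : ℕ) {Λ : ℝ} (h : 1 ≤ Λ) : 1 ≤ k2 k Λ :=
  one_le_mul_of_one_le_of_one_le (one_le_k1 k h) (one_le_pow₀ h)
lemma one_le_k3 (k : ℕ) {Λ : ℝ} (h : 1 ≤ Λ) : 1 ≤ k3 k Λ :=
  one_le_mul_of_one_le_of_one_le (one_le_pow₀ h) (one_le_pow₀ (one_le_mul_of_one_le_of_one_le
    (one_le_mul_of_one_le_of_one_le (by nlinarith [Nat.cast_nonneg (α := ℝ) k]) (one_le_k2 k h)) h))
lemma one_le_k4 (k : ℕ) {Λ : ℝ} (h : 1 ≤ Λ) : 1 ≤ k4 k Λ :=
  one_le_mul_of_one_le_of_one_le (one_le_mul_of_one_le_of_one_le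
    (by nlinarith [one_le_pow₀ (n := 2) h]) (one_le_k3 k h)) (one_le_k2 k h)

/-- the points whose cells are rich at all dyadic scales -/
noncomputable def richY (k T : ℕ) (s Λ : ℝ) (Y : Finset (D → ℤ)) : Finset (D → ℤ) :=
  Y.filter fun y => ∀ i < T, 1 / (10 * Λ ^ 5) * (((2 : ℝ) ^ i) ^ s) ^ (k + 1) ≤
    (Y.filter fun y' => cel (2 ^ i) y' = cel (2 ^ i) y).card

variable {β ι : Type*} {k : ℕ} {i0 i1 : D} {N s κ Λ ρ₀ : ℝ} {Y : Finset (D → ℤ)} {P : Finset β}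
  {b : β → D → ℝ} {W : β → Finset (D → ℤ)} {τ : β → (D → ℤ) → ι} {T : ℕ}

/-- standing assumptions -/
structure Std (D : Type*) [Fintype D] (k T : ℕ) (N s Λ : ℝ) : Prop where
  hk : Fintype.card D = k + 1
  hk1 : 1 ≤ k
  hΛ : 1 ≤ Λ
  hN : 1 ≤ N
  hs : 0 ≤ s
  hs1 : s ≤ 1
  hT : (T : ℝ) ≤ Λ
  hTN : ∀ i, i < T ↔ (2 : ℝ) ^ i ≤ N

lemma one_le_two_pow (i : ℕ) : (1 : ℝ) ≤ 2 ^ i := one_le_pow₀ (by norm_num)

lemma HypZ.projf (h : HypZ k i0 i1 N s κ Λ ρ₀ Y P b W τ) {ρ : ℝ} (h1 : 1 ≤ ρ) (h2 : ρ ≤ N)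
    (c : D → ℤ) (j : D) : ((prj j (Y.filter fun y => cel ρ y = c)).card : ℝ) ≤ Λ * (ρ ^ s) ^ k := by
  convert h.proj ρ h1 h2 c j

lemma HypZ.card_Y (h : HypZ k i0 i1 N s κ Λ ρ₀ Y P b W τ) (H : Std D k T N s Λ) :
    (Y.card : ℝ) ≤ Λ ^ 2 * (N ^ s) ^ (k + 1) :=
  card_le_of_prj H.hk H.hk1 Y H.hΛ (Real.rpow_nonneg (by linarith [H.hN]) _) h.projN

lemma HypZ.card_cell (h : HypZ k i0 i1 N s κ Λ ρ₀ Y P b W τ) (H : Std D k T N s Λ) {i : ℕ}
    (hi : i < T) (c : D → ℤ) : ((Y.filter fun y => cel (2 ^ i) y = c).card : ℝ) ≤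
      Λ ^ 2 * (((2 : ℝ) ^ i) ^ s) ^ (k + 1) :=
  card_le_of_prj H.hk H.hk1 _ H.hΛ (by positivity)
    (h.projf (one_le_two_pow i) ((H.hTN i).1 hi) c)

lemma HypZ.card_cells (h : HypZ k i0 i1 N s κ Λ ρ₀ Y P b W τ) (H : Std D k T N s Λ) {i : ℕ}
    (hi : i < T) : ((Y.image (cel (2 ^ i))).card : ℝ) * (((2 : ℝ) ^ i) ^ s) ^ (k + 1) ≤
      Λ ^ 3 * (N ^ s) ^ (k + 1) := by
  have h1 := h.cells _ (one_le_two_pow i) ((H.hTN i).1 hi)
  have h2 := mul_le_mul_of_nonneg_left (h.card_Y H) (show 0 ≤ Λ by linarith [H.hΛ])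
  calc _ ≤ Λ * Y.card := by convert h1
    _ ≤ _ := h2.trans (le_of_eq (by ring))

lemma HypZ.card_poor (h : HypZ k i0 i1 N s κ Λ ρ₀ Y P b W τ) (H : Std D k T N s Λ) :
    ((Y \ richY k T s Λ Y).card : ℝ) ≤ (N ^ s) ^ (k + 1) / (10 * Λ) := by
  have hΛ := H.hΛ
  have hN := H.hN
  have hsub : Y \ richY k T s Λ Y ⊆ (range T).biUnion fun i => Y.filter fun y =>
      ((Y.filter fun y' => cel (2 ^ i) y' = cel (2 ^ i) y).card : ℝ) <
        1 / (10 * Λ ^ 5) * (((2 : ℝ) ^ i) ^ s) ^ (k + 1) := by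
    intro y hy
    obtain ⟨h1, h2⟩ := mem_sdiff.1 hy
    rw [richY, mem_filter] at h2
    push Not at h2
    obtain ⟨i, hi, h3⟩ := h2 h1
    exact mem_biUnion.2 ⟨i, mem_range.2 hi, mem_filter.2 ⟨h1, h3⟩⟩
  calc _ ≤ ∑ i ∈ range T, ((Y.filter fun y =>
      ((Y.filter fun y' => cel (2 ^ i) y' = cel (2 ^ i) y).card : ℝ) <
        1 / (10 * Λ ^ 5) * (((2 : ℝ) ^ i) ^ s) ^ (k + 1)).card : ℝ) := by
        exact_mod_cast (card_le_card hsub).trans card_biUnion_le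
    _ ≤ (range T).card • ((N ^ s) ^ (k + 1) / (10 * Λ ^ 2)) := by
        refine sum_le_card_nsmul _ _ _ fun i hi => ?_
        refine (card_le_mul_of_fib _ (cel (2 ^ i)) (Y.image (cel (2 ^ i)))
          (fun y hy => mem_image_of_mem _ (mem_filter.1 hy).1)
          (M := 1 / (10 * Λ ^ 5) * (((2 : ℝ) ^ i) ^ s) ^ (k + 1)) fun c _ => ?_).trans ?_
        · rcases ((Y.filter fun y =>
            ((Y.filter fun y' => cel (2 ^ i) y' = cel (2 ^ i) y).card : ℝ) <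
            1 / (10 * Λ ^ 5) * (((2 : ℝ) ^ i) ^ s) ^ (k + 1)).filter
            fun a => cel (2 ^ i) a = c).eq_empty_or_nonempty with h0 | ⟨y, hy⟩
          · rw [h0]; simp only [card_empty, Nat.cast_zero]; positivity
          · simp only [mem_filter] at hy
            refine le_trans ?_ hy.1.2.le
            refine Nat.cast_le.2 (card_le_card fun y' hy' => ?_)
            simp only [mem_filter] at hy' ⊢
            exact ⟨hy'.1.1, hy'.2.trans hy.2.symm⟩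
        · have := h.card_cells H (mem_range.1 hi)
          rw [mul_left_comm]
          refine (mul_le_mul_of_nonneg_left this (by positivity)).trans (le_of_eq ?_)
          field_simp
    _ ≤ Λ * ((N ^ s) ^ (k + 1) / (10 * Λ ^ 2)) := by
        rw [card_range, nsmul_eq_mul]; gcongr; exact H.hT
    _ = _ := by field_simp

/-- coarse projections -/
lemma HypZ.coarse (h : HypZ k i0 i1 N s κ Λ ρ₀ Y P b W τ) (H : Std D k T N s Λ) {i : ℕ}
    (hi : i < T) (j : D) : ((prj j ((richY k T s Λ Y).image (cel (2 ^ i)))).card : ℝ) ≤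
      k1 k Λ * (N ^ s / ((2 : ℝ) ^ i) ^ s) ^ k := by
  have hΛ := H.hΛ
  have h1 := mul_le_card_of_fib (prj j Y) (cel (2 ^ i))
    (prj j ((richY k T s Λ Y).image (cel (2 ^ i))))
    (M := (1 / (10 * Λ ^ 5) / Λ) ^ k * (((2 : ℝ) ^ i) ^ s) ^ k) (by
      intro q hq
      obtain ⟨_, hc, rfl⟩ := mem_image.1 hq
      obtain ⟨y, hy, rfl⟩ := mem_image.1 hc
      refine (prj_ge H.hk H.hk1 _ (by linarith) (by positivity) (by positivity)
        (h.projf (one_le_two_pow i) ((H.hTN i).1 hi) (cel (2 ^ i) y))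
        ((mem_filter.1 hy).2 i hi) j).trans ?_
      refine Nat.cast_le.2 (card_le_card fun z hz => ?_)
      obtain ⟨y', hy', rfl⟩ := mem_image.1 hz
      refine mem_filter.2 ⟨mem_image_of_mem _ (mem_filter.1 hy').1, ?_⟩
      rw [cel_update, (mem_filter.1 hy').2])
  have h2 := h1.trans (h.projN j)
  rw [← le_div_iff₀ (by positivity)] at h2
  refine h2.trans (le_of_eq ?_)
  rw [k1, div_pow, div_pow, div_pow, mul_pow, mul_pow]
  field_simp
  ring

/-- mass of a slab -/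
lemma HypZ.slab (h : HypZ k i0 i1 N s κ Λ ρ₀ Y P b W τ) (H : Std D k T N s Λ) {i : ℕ}
    (hi : i < T) (l : D) (m : ℤ) :
    (((richY k T s Λ Y).filter fun y => y l / 2 ^ i = m).card : ℝ) ≤
      k2 k Λ * ((2 : ℝ) ^ i) ^ s * (N ^ s) ^ k := by
  have hΛ := H.hΛ
  refine (card_le_mul_of_fib _ (fun y => update (cel (2 ^ i) y) l 0)
    (prj l ((richY k T s Λ Y).image (cel (2 ^ i))))
    (fun y hy => mem_image_of_mem _ (mem_image_of_mem _ (mem_filter.1 hy).1))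
    (M := Λ ^ 2 * (((2 : ℝ) ^ i) ^ s) ^ (k + 1)) fun c _ => ?_).trans ?_
  · refine le_trans ?_ (h.card_cell H hi (update c l m))
    refine Nat.cast_le.2 (card_le_card fun y hy => ?_)
    simp only [mem_filter, richY] at hy ⊢
    refine ⟨hy.1.1.1, ?_⟩
    rw [← hy.2, update_idem, ← hy.1.2, ← cel_pow, update_eq_self]
  · refine (mul_le_mul_of_nonneg_right (h.coarse H hi l) (by positivity)).trans (le_of_eq ?_)
    rw [k2, div_pow]
    field_simp
    ring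

/-- product structure at the scale `2^i` -/
lemma HypZ.blocks (h : HypZ k i0 i1 N s κ Λ ρ₀ Y P b W τ) (H : Std D k T N s Λ) {i : ℕ}
    (hi : i < T) : ∃ (A : D → Finset ℤ) (E : Finset (D → ℤ)),
      (∀ l, ((A l).card : ℝ) ≤ k3 k Λ * (N ^ s / ((2 : ℝ) ^ i) ^ s)) ∧
      (E.card : ℝ) ≤ (N ^ s) ^ (k + 1) / (30 * Λ) ∧
      ∀ y ∈ richY k T s Λ Y, y ∉ E → ∀ l, y l / 2 ^ i ∈ A l := by
  have hΛ := H.hΛ
  have hN := H.hN
  have g1 := one_le_k1 k hΛ
  have g2 := one_le_k2 k hΛ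
  set u := N ^ s / ((2 : ℝ) ^ i) ^ s with hu
  have hu0 : 0 < u := by positivity
  obtain ⟨A, E, h1, h2, h3⟩ := product_structure H.hk H.hk1 ((richY k T s Λ Y).image (cel (2 ^ i)))
    (lam := u / (30 * (k + 1) * k2 k Λ * Λ)) (by positivity) (h.coarse H hi)
  refine ⟨A, Y.filter fun y => cel (2 ^ i) y ∈ E, fun l => (h1 l).trans ?_, ?_, ?_⟩
  · have h4 : (((richY k T s Λ Y).image (cel (2 ^ i))).card : ℝ) ≤ Λ ^ 3 * u ^ (k + 1) := by
      rw [hu, div_pow, mul_div_assoc', le_div_iff₀ (by positivity)]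
      refine le_trans (mul_le_mul_of_nonneg_right ?_ (by positivity)) (h.card_cells H hi)
      exact_mod_cast card_le_card (image_subset_image (filter_subset _ _))
    refine (div_le_div_of_nonneg_right h4 (by positivity)).trans (le_of_eq ?_)
    have : 0 < (30 * (k + 1) * k2 k Λ * Λ) ^ k := by positivity
    clear_value u
    subst hu
    rw [k3]
    generalize N ^ s / ((2 : ℝ) ^ i) ^ s = u at hu0
    rw [div_pow]
    generalize (30 * (k + 1) * k2 k Λ * Λ) ^ k = w at this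
    field_simp
    ring
  · refine (card_le_mul_of_fib _ (cel (2 ^ i)) E (fun y hy => (mem_filter.1 hy).2)
      (M := Λ ^ 2 * (((2 : ℝ) ^ i) ^ s) ^ (k + 1)) fun c _ => ?_).trans ?_
    · refine le_trans ?_ (h.card_cell H hi c)
      exact_mod_cast card_le_card (filter_subset_filter _ (filter_subset _ _))
    · refine (mul_le_mul_of_nonneg_right h2 (by positivity)).trans (le_of_eq ?_)
      rw [hu, k2, div_pow]
      field_simp
      ring
  · intro y hy hE l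
    rw [← cel_pow]
    exact h3 _ (mem_image_of_mem _ hy) (fun h4 => hE (mem_filter.2 ⟨(mem_filter.1 hy).1, h4⟩)) l

/-- points over heavy blocks -/
lemma HypZ.heavy (h : HypZ k i0 i1 N s κ Λ ρ₀ Y P b W τ) (H : Std D k T N s Λ) {a t : ℕ}
    (hi : a + t < T) (l : D) (A : Finset ℤ)
    (hA : (A.card : ℝ) ≤ k3 k Λ * (N ^ s / ((2 : ℝ) ^ a) ^ s)) :
    (((richY k T s Λ Y).filter fun y => k4 k Λ * ((2 : ℝ) ^ t) ^ s <
      (A.filter fun v => v / 2 ^ t = y l / 2 ^ (a + t)).card).card : ℝ) ≤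
      (N ^ s) ^ (k + 1) / (30 * Λ ^ 2) := by
  have hΛ := H.hΛ
  have hN := H.hN
  have g2 := one_le_k2 k hΛ
  have g3 := one_le_k3 k hΛ
  have g4 := one_le_k4 k hΛ
  set B := (A.image fun v => v / 2 ^ t).filter fun m => k4 k Λ * ((2 : ℝ) ^ t) ^ s <
      (A.filter fun v => v / 2 ^ t = m).card with hB
  have h1 := (mul_le_card_of_fib A (fun v => v / 2 ^ t) B fun m hm => (mem_filter.1 hm).2.le).trans hA
  rw [← le_div_iff₀ (by positivity)] at h1
  refine (card_le_mul_of_fib _ (fun y => y l / 2 ^ (a + t)) B ?_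
    (M := k2 k Λ * ((2 : ℝ) ^ (a + t)) ^ s * (N ^ s) ^ k) fun m _ => ?_).trans ?_
  · intro y hy
    have h2 := (mem_filter.1 hy).2
    refine mem_filter.2 ⟨?_, h2⟩
    have h3 : (0 : ℝ) < (A.filter fun v => v / 2 ^ t = y l / 2 ^ (a + t)).card :=
      lt_trans (by positivity) h2
    obtain ⟨v, hv⟩ := card_pos.1 (by exact_mod_cast h3)
    exact mem_image.2 ⟨v, (mem_filter.1 hv).1, (mem_filter.1 hv).2⟩
  · refine le_trans ?_ (h.slab H hi l m)
    exact_mod_cast card_le_card (filter_subset_filter _ (filter_subset _ _))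
  · refine (mul_le_mul_of_nonneg_right h1 (by positivity)).trans (le_of_eq ?_)
    rw [k4, pow_add, Real.mul_rpow (by positivity) (by positivity)]
    field_simp
    ring

end Crest.Agent.N76.LG
end

-- ▼ part N76/LG/Z2
section

/-! # Row 76, Lemma G (lattice form), part 2: regularisation and choice of the window
(helper96) -/

set_option autoImplicit false

namespace Crest.Agent.N76.LG

open Finset Function
open Crest.Agent.N76.MK

variable {D : Type*} [Fintype D] [DecidableEq D]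
variable {β ι : Type*} {k : ℕ} {i0 i1 : D} {N s κ Λ ρ₀ : ℝ} {Y : Finset (D → ℤ)} {P : Finset β}
  {b : β → D → ℝ} {W : β → Finset (D → ℤ)} {τ : β → (D → ℤ) → ι} {T : ℕ}

/-- output of the regularisation -/
structure Reg (k T j0 j1 : ℕ) (i0 i1 : D) (N s Λ : ℝ) (Y Y5 : Finset (D → ℤ)) (A : D → Finset ℤ)
    (B0 B1 : Finset ℤ) : Prop where
  sub : Y5 ⊆ richY k T s Λ Y
  rem : ((Y \ Y5).card : ℝ) ≤ 3 * (N ^ s) ^ (k + 1) / (10 * Λ)
  cA : ∀ l, ((A l).card : ℝ) ≤ k3 k Λ * N ^ s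
  mA : ∀ y ∈ Y5, ∀ l, y l ∈ A l
  cB0 : (B0.card : ℝ) ≤ k3 k Λ * (N ^ s / ((2 : ℝ) ^ j0) ^ s)
  mB0 : ∀ y ∈ Y5, y i0 / 2 ^ j0 ∈ B0
  cB1 : (B1.card : ℝ) ≤ k3 k Λ * (N ^ s / ((2 : ℝ) ^ j1) ^ s)
  mB1 : ∀ y ∈ Y5, y i1 / 2 ^ j1 ∈ B1
  hB0 : ∀ y ∈ Y5, ∀ t, j0 + t < T →
    ((B0.filter fun v => v / 2 ^ t = y i0 / 2 ^ (j0 + t)).card : ℝ) ≤ k4 k Λ * ((2 : ℝ) ^ t) ^ s
  hA1 : ∀ y ∈ Y5,
    (((A i1).filter fun v => v / 2 ^ j1 = y i1 / 2 ^ j1).card : ℝ) ≤ k4 k Λ * ((2 : ℝ) ^ j1) ^ s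
  hA0 : ∀ y ∈ Y5,
    (((A i0).filter fun v => v / 2 ^ j0 = y i0 / 2 ^ j0).card : ℝ) ≤ k4 k Λ * ((2 : ℝ) ^ j0) ^ s

theorem HypZ.reg (h : HypZ k i0 i1 N s κ Λ ρ₀ Y P b W τ) (H : Std D k T N s Λ) {j0 j1 : ℕ}
    (h0 : j0 < T) (h1 : j1 < T) : ∃ Y5 A B0 B1, Reg k T j0 j1 i0 i1 N s Λ Y Y5 A B0 B1 := by
  have hΛ := H.hΛ
  have hN := H.hN
  obtain ⟨A, E, a1, a2, a3⟩ := h.blocks H (i := 0) (by omega)
  obtain ⟨A0, E0, b1, b2, b3⟩ := h.blocks H h0
  obtain ⟨A1, E1, c1, c2, c3⟩ := h.blocks H h1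
  set R := richY k T s Λ Y with hR
  set F : ℕ → Finset (D → ℤ) := fun t => R.filter fun y => k4 k Λ * ((2 : ℝ) ^ t) ^ s <
      ((A0 i0).filter fun v => v / 2 ^ t = y i0 / 2 ^ (j0 + t)).card with hF
  set F1 := R.filter fun y => k4 k Λ * ((2 : ℝ) ^ j1) ^ s <
      ((A i1).filter fun v => v / 2 ^ j1 = y i1 / 2 ^ (0 + j1)).card with hF1
  set F0 := R.filter fun y => k4 k Λ * ((2 : ℝ) ^ j0) ^ s <
      ((A i0).filter fun v => v / 2 ^ j0 = y i0 / 2 ^ (0 + j0)).card with hF0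
  set G := ((range T).filter fun t => j0 + t < T).biUnion F with hG
  set u := (N ^ s) ^ (k + 1) with hu
  have hu0 : 0 ≤ u := by positivity
  have d1 : (F1.card : ℝ) ≤ u / (30 * Λ ^ 2) := h.heavy H (by omega) i1 _ (a1 i1)
  have d0 : (F0.card : ℝ) ≤ u / (30 * Λ ^ 2) := h.heavy H (by omega) i0 _ (a1 i0)
  have d2 : (G.card : ℝ) ≤ u / (30 * Λ) := by
    calc _ ≤ ∑ t ∈ (range T).filter fun t => j0 + t < T, ((F t).card : ℝ) := by
          exact_mod_cast card_biUnion_le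
      _ ≤ ((range T).filter fun t => j0 + t < T).card • (u / (30 * Λ ^ 2)) :=
          sum_le_card_nsmul _ _ _ fun t ht => h.heavy H (mem_filter.1 ht).2 i0 _ (b1 i0)
      _ ≤ Λ * (u / (30 * Λ ^ 2)) := by
          rw [nsmul_eq_mul]
          gcongr
          refine le_trans ?_ H.hT
          exact_mod_cast (card_filter_le _ _).trans (card_range T).le
      _ = _ := by field_simp
  have d3 : u / (30 * Λ ^ 2) ≤ u / (30 * Λ) :=
    div_le_div_of_nonneg_left hu0 (by positivity) (by nlinarith)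
  set Bad := E ∪ E0 ∪ E1 ∪ G ∪ F1 ∪ F0 with hBad
  have hm : ∀ y ∈ R \ Bad, y ∈ R ∧ y ∉ E ∧ y ∉ E0 ∧ y ∉ E1 ∧ y ∉ G ∧ y ∉ F1 ∧ y ∉ F0 := by
    intro y hy
    simpa only [hBad, mem_sdiff, mem_union, not_or, and_assoc] using hy
  refine ⟨R \ Bad, A, A0 i0, A1 i1, sdiff_subset, ?_, fun l => by simpa using a1 l,
    fun y hy l => by simpa using a3 y (hm y hy).1 (hm y hy).2.1 l, b1 i0,
    fun y hy => b3 y (hm y hy).1 (hm y hy).2.2.1 i0, c1 i1,
    fun y hy => c3 y (hm y hy).1 (hm y hy).2.2.2.1 i1, ?_, ?_, ?_⟩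
  · have e1 : Y \ (R \ Bad) ⊆ (Y \ R) ∪ Bad := by
      intro y hy
      simp only [mem_sdiff, mem_union, not_and, not_not] at hy ⊢
      by_cases q : y ∈ R
      · exact Or.inr (hy.2 q)
      · exact Or.inl ⟨hy.1, q⟩
    have e2 : (Y \ (R \ Bad)).card ≤ (Y \ R).card + (E.card + E0.card + E1.card + G.card +
        F1.card + F0.card) := by
      refine (card_le_card e1).trans ((card_union_le _ _).trans (Nat.add_le_add_left ?_ _))
      have := card_union_le (E ∪ E0 ∪ E1 ∪ G ∪ F1) F0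
      have := card_union_le (E ∪ E0 ∪ E1 ∪ G) F1
      have := card_union_le (E ∪ E0 ∪ E1) G
      have := card_union_le (E ∪ E0) E1
      have := card_union_le E E0
      rw [hBad]; omega
    have e3 : ((Y \ (R \ Bad)).card : ℝ) ≤ (Y \ R).card + (E.card + E0.card + E1.card + G.card +
        F1.card + F0.card) := by exact_mod_cast e2
    have e4 := h.card_poor H
    rw [← hR, ← hu] at e4
    have e5 : 3 * u / (10 * Λ) = u / (10 * Λ) + 6 * (u / (30 * Λ)) := by field_simp; ring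
    linarith
  · intro y hy t ht
    by_contra q
    exact (hm y hy).2.2.2.2.1 (mem_biUnion.2 ⟨t, mem_filter.2 ⟨mem_range.2 (by omega), ht⟩,
      mem_filter.2 ⟨(hm y hy).1, not_le.1 q⟩⟩)
  · intro y hy
    by_contra q
    exact (hm y hy).2.2.2.2.2.1 (mem_filter.2 ⟨(hm y hy).1, by rw [zero_add]; exact not_le.1 q⟩)
  · intro y hy
    by_contra q
    exact (hm y hy).2.2.2.2.2.2 (mem_filter.2 ⟨(hm y hy).1, by rw [zero_add]; exact not_le.1 q⟩)

lemma abs_div_two_pow (y : ℤ) (j : ℕ) : |((y / 2 ^ j : ℤ) : ℝ) - y / 2 ^ j| ≤ 1 := by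
  have h := cel_pow j (fun _ : Unit => y) ()
  simp only [cel] at h
  rw [← h, abs_le]
  constructor <;> linarith [Int.floor_le ((y : ℝ) / 2 ^ j), Int.lt_floor_add_one ((y : ℝ) / 2 ^ j)]

def k5 (k : ℕ) (Λ : ℝ) : ℝ := 130 * Λ ^ 3 * k2 k Λ

lemma one_le_k5 (k : ℕ) {Λ : ℝ} (h : 1 ≤ Λ) : 1 ≤ k5 k Λ :=
  one_le_mul_of_one_le_of_one_le (by nlinarith [one_le_pow₀ (n := 3) h]) (one_le_k2 k h)

lemma HypZ.labc' [DecidableEq ι] (h : HypZ k i0 i1 N s κ Λ ρ₀ Y P b W τ) {θ : β} (hθ : θ ∈ P) :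
    (((W θ).image (τ θ)).card : ℝ) ≤ Λ * (N ^ s) ^ k := by
  convert h.labc θ hθ

/-- blocks met by many lines carry little mass -/
lemma HypZ.many_lines [DecidableEq ι] {j0 j1 : ℕ}
    (h : HypZ k i0 i1 N s κ Λ (2 ^ j0) Y P b W τ) (H : Std D k T N s Λ) (h1 : j1 < T)
    (hρ : N / 2 ^ j0 ≤ 2 * 2 ^ j1) {θ : β} (hθ : θ ∈ P) :
    (((richY k T s Λ Y).filter fun y => k5 k Λ * ((N ^ s) ^ k * ((2 : ℝ) ^ j1) ^ s / N ^ s) <
      (((W θ).filter fun y' => y' i1 / 2 ^ j1 = y i1 / 2 ^ j1).image (τ θ)).card).card : ℝ) ≤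
      (N ^ s) ^ (k + 1) / (10 * Λ) := by
  have hΛ := H.hΛ
  have hN := H.hN
  have g2 := one_le_k2 k hΛ
  have g5 := one_le_k5 k hΛ
  have hr1 := one_le_two_pow j1
  set M := k5 k Λ * ((N ^ s) ^ k * ((2 : ℝ) ^ j1) ^ s / N ^ s) with hM
  have hM0 : 0 < M := by positivity
  set B := ((W θ).image fun y => y i1 / 2 ^ j1).filter fun m => M <
      (((W θ).filter fun y' => y' i1 / 2 ^ j1 = m).image (τ θ)).card with hB
  set Q := (W θ).image fun y => (y i1 / 2 ^ j1, τ θ y) with hQ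
  have q1 : B.card * M ≤ (Q.card : ℝ) := by
    refine mul_le_card_of_fib Q Prod.fst B fun m hm => (mem_filter.1 hm).2.le.trans ?_
    refine Nat.cast_le.2 (le_trans (card_le_card ?_) (card_image_le (f := Prod.snd)))
    intro t ht
    obtain ⟨y, hy, rfl⟩ := mem_image.1 ht
    exact mem_image.2 ⟨(y i1 / 2 ^ j1, τ θ y), mem_filter.2 ⟨mem_image_of_mem _
      (mem_filter.1 hy).1, (mem_filter.1 hy).2⟩, rfl⟩
  have q2 : (Q.card : ℝ) ≤ ((W θ).image (τ θ)).card * (13 * Λ) := by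
    refine card_le_mul_of_fib Q Prod.snd _ ?_ fun t ht => ?_
    · intro z hz
      obtain ⟨y, hy, rfl⟩ := mem_image.1 hz
      exact mem_image_of_mem _ hy
    · obtain ⟨y0, hy0, rfl⟩ := mem_image.1 ht
      rw [← card_image_of_injOn (f := Prod.fst) (by
        intro z hz z' hz' e
        exact Prod.ext e ((mem_filter.1 hz).2.trans (mem_filter.1 hz').2.symm))]
      refine (card_int_close _ ((y0 i1 : ℝ) / 2 ^ j1) (6 * Λ) (by linarith) ?_).trans (by linarith)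
      intro v hv
      obtain ⟨z, hz, rfl⟩ := mem_image.1 hv
      obtain ⟨hz, e⟩ := mem_filter.1 hz
      obtain ⟨y, hy, rfl⟩ := mem_image.1 hz
      have t1 := h.tube θ hθ y hy y0 hy0 e i1
      have t2 : |b θ i1| ≤ 1 / 2 ^ j0 := by
        have := h.slope θ hθ
        rw [abs_mul, abs_of_pos (by positivity)] at this
        rw [le_div_iff₀ (by positivity)]; linarith
      have t3 : |(y i0 : ℝ) - y0 i0| ≤ 2 * (Λ * N) := by
        have := abs_le.1 (h.bd y (h.sub θ hθ hy) i0)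
        have := abs_le.1 (h.bd y0 (h.sub θ hθ hy0) i0)
        rw [abs_le]; constructor <;> linarith
      have t4 : |((y i0 : ℝ) - y0 i0) * b θ i1| ≤ 4 * Λ * 2 ^ j1 := by
        rw [abs_mul]
        calc _ ≤ 2 * (Λ * N) * (1 / 2 ^ j0) := mul_le_mul t3 t2 (abs_nonneg _) (by positivity)
          _ = 2 * Λ * (N / 2 ^ j0) := by ring
          _ ≤ 2 * Λ * (2 * 2 ^ j1) := by gcongr
          _ = _ := by ring
      have t5 : |(y i1 : ℝ) / 2 ^ j1 - y0 i1 / 2 ^ j1| ≤ 5 * Λ := by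
        rw [← sub_div, abs_div, abs_of_pos (show (0 : ℝ) < 2 ^ j1 by positivity),
          div_le_iff₀ (by positivity)]
        have : Λ ≤ Λ * 2 ^ j1 := by nlinarith
        rw [abs_le] at t1 t4 ⊢
        constructor <;> linarith [t1.1, t1.2, t4.1, t4.2]
      have t6 := abs_div_two_pow (y i1) j1
      rw [abs_le] at t5 t6 ⊢
      constructor <;> linarith [t5.1, t5.2, t6.1, t6.2]
  have q3 : (B.card : ℝ) ≤ Λ * (N ^ s) ^ k * (13 * Λ) / M := by
    rw [le_div_iff₀ hM0]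
    refine q1.trans (q2.trans (mul_le_mul_of_nonneg_right ?_ (by positivity)))
    exact h.labc' hθ
  refine (card_le_mul_of_fib _ (fun y => y i1 / 2 ^ j1) B ?_
    (M := k2 k Λ * ((2 : ℝ) ^ j1) ^ s * (N ^ s) ^ k) fun m _ => ?_).trans ?_
  · intro y hy
    have h2 := (mem_filter.1 hy).2
    refine mem_filter.2 ⟨?_, h2⟩
    obtain ⟨t, ht⟩ := card_pos.1 (Nat.cast_pos.1 (hM0.trans h2))
    obtain ⟨y', hy', _⟩ := mem_image.1 ht
    exact mem_image.2 ⟨y', (mem_filter.1 hy').1, (mem_filter.1 hy').2⟩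
  · refine le_trans ?_ (h.slab H h1 i1 m)
    exact_mod_cast card_le_card (filter_subset_filter _ (filter_subset _ _))
  · refine (mul_le_mul_of_nonneg_right q3 (by positivity)).trans (le_of_eq ?_)
    rw [hM, k5]
    field_simp
    ring

/-- **choice of the window** in the coordinate `i1` -/
theorem HypZ.window [DecidableEq ι] {j0 j1 : ℕ}
    (h : HypZ k i0 i1 N s κ Λ (2 ^ j0) Y P b W τ) (H : Std D k T N s Λ) (h1 : j1 < T)
    (hρ : N / 2 ^ j0 ≤ 2 * 2 ^ j1) {Y5 : Finset (D → ℤ)} {A : D → Finset ℤ} {B0 B1 : Finset ℤ}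
    (hR : Reg k T j0 j1 i0 i1 N s Λ Y Y5 A B0 B1) :
    ∃ (m : ℤ) (P2 : Finset β) (W2 : β → Finset (D → ℤ)), P2 ⊆ P ∧
      (P.card : ℝ) ≤ 4 * Λ * k3 k Λ * k2 k Λ * P2.card ∧
      ∀ θ ∈ P2, W2 θ ⊆ W θ ∧ W2 θ ⊆ Y5 ∧ (∀ y ∈ W2 θ, y i1 / 2 ^ j1 = m) ∧
        (N ^ s) ^ k * ((2 : ℝ) ^ j1) ^ s / (4 * Λ * k3 k Λ) ≤ (W2 θ).card ∧
        (((W2 θ).image (τ θ)).card : ℝ) ≤
          k5 k Λ * ((N ^ s) ^ k * ((2 : ℝ) ^ j1) ^ s / N ^ s) := by
  classical
  have hΛ := H.hΛ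
  have hN := H.hN
  have g2 := one_le_k2 k hΛ
  have g3 := one_le_k3 k hΛ
  set M := k5 k Λ * ((N ^ s) ^ k * ((2 : ℝ) ^ j1) ^ s / N ^ s) with hM
  set W1 : β → Finset (D → ℤ) := fun θ => (W θ ∩ Y5).filter fun y =>
    ((((W θ).filter fun y' => y' i1 / 2 ^ j1 = y i1 / 2 ^ j1).image (τ θ)).card : ℝ) ≤ M with hW1
  have a1 : ∀ θ ∈ P, (N ^ s) ^ (k + 1) / (2 * Λ) ≤ (W1 θ).card := by
    intro θ hθ
    have e1 : W θ ⊆ W1 θ ∪ (Y \ Y5) ∪ (richY k T s Λ Y).filter fun y => M <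
        (((W θ).filter fun y' => y' i1 / 2 ^ j1 = y i1 / 2 ^ j1).image (τ θ)).card := by
      intro y hy
      simp only [mem_union, hW1, mem_filter, mem_inter, mem_sdiff]
      by_cases q : y ∈ Y5
      · rcases le_or_gt ((((W θ).filter fun y' => y' i1 / 2 ^ j1 = y i1 / 2 ^ j1).image
          (τ θ)).card : ℝ) M with q' | q'
        · exact Or.inl (Or.inl ⟨⟨hy, q⟩, q'⟩)
        · exact Or.inr ⟨hR.sub q, q'⟩
      · exact Or.inl (Or.inr ⟨h.sub θ hθ hy, q⟩)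
    have e2 := (card_le_card e1).trans ((card_union_le _ _).trans
      (Nat.add_le_add_right (card_union_le _ _) _))
    have e3 := (Nat.cast_le (α := ℝ)).2 e2
    push_cast at e3
    have e4 := h.many_lines H h1 hρ hθ
    have e5 := hR.rem
    have e6 : (N ^ s) ^ (k + 1) / Λ ≤ (W θ).card := by
      rw [div_le_iff₀ (by linarith)]; linarith [h.big θ hθ]
    have e7 : (N ^ s) ^ (k + 1) / Λ = (N ^ s) ^ (k + 1) / (2 * Λ) +
        3 * (N ^ s) ^ (k + 1) / (10 * Λ) + 2 * ((N ^ s) ^ (k + 1) / (10 * Λ)) := by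
      field_simp; norm_num
    have e8 : 0 ≤ (N ^ s) ^ (k + 1) / (10 * Λ) := by positivity
    rw [← hM] at e4
    linarith
  set f : β → ℤ → ℝ := fun θ m => ((W1 θ).filter fun y => y i1 / 2 ^ j1 = m).card with hf
  set u := (N ^ s) ^ k * ((2 : ℝ) ^ j1) ^ s with hu
  have hu0 : 0 < u := by positivity
  have hP : (0 : ℝ) < P.card := by exact_mod_cast h.ne.card_pos
  have a2 : ∃ m ∈ B1, P.card * (u / (2 * Λ * k3 k Λ)) ≤ ∑ θ ∈ P, f θ m := by
    have e1 : ∀ θ ∈ P, (N ^ s) ^ (k + 1) / (2 * Λ) ≤ ∑ m ∈ B1, f θ m := by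
      intro θ hθ
      refine (a1 θ hθ).trans (le_of_eq ?_)
      rw [card_eq_sum_card_fiberwise (f := fun y => y i1 / 2 ^ j1) (t := B1)
        fun y hy => hR.mB1 y (mem_inter.1 (mem_filter.1 hy).1).2]
      push_cast; rfl
    have e2 : P.card * ((N ^ s) ^ (k + 1) / (2 * Λ)) ≤ ∑ m ∈ B1, ∑ θ ∈ P, f θ m := by
      rw [sum_comm, ← nsmul_eq_mul]; exact card_nsmul_le_sum _ _ _ e1
    have hne : B1.Nonempty := by
      rw [nonempty_iff_ne_empty]
      rintro rfl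
      rw [sum_empty] at e2
      have : 0 < P.card * ((N ^ s) ^ (k + 1) / (2 * Λ)) := by positivity
      linarith
    refine exists_le_of_sum_le hne (le_trans ?_ e2)
    rw [sum_const, nsmul_eq_mul]
    refine (mul_le_mul_of_nonneg_right hR.cB1 (by positivity)).trans (le_of_eq ?_)
    rw [hu]; field_simp; ring
  obtain ⟨m, _, hm⟩ := a2
  refine ⟨m, P.filter fun θ => u / (4 * Λ * k3 k Λ) ≤ f θ m,
    fun θ => (W1 θ).filter fun y => y i1 / 2 ^ j1 = m, filter_subset _ _, ?_, ?_⟩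
  · have e1 : ∑ θ ∈ P, f θ m ≤ (P.filter fun θ => u / (4 * Λ * k3 k Λ) ≤ f θ m).card *
        (k2 k Λ * u) + P.card * (u / (4 * Λ * k3 k Λ)) := by
      rw [← sum_filter_add_sum_filter_not P fun θ => u / (4 * Λ * k3 k Λ) ≤ f θ m]
      refine add_le_add ?_ ?_
      · rw [← nsmul_eq_mul]
        refine sum_le_card_nsmul _ _ _ fun θ _ => ?_
        refine le_trans ?_ ((h.slab H h1 i1 m).trans (le_of_eq (by rw [hu]; ring)))
        refine Nat.cast_le.2 (card_le_card (filter_subset_filter _ fun y hy => ?_))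
        exact hR.sub (mem_inter.1 (mem_filter.1 hy).1).2
      · refine (sum_le_card_nsmul _ _ (u / (4 * Λ * k3 k Λ))
          fun θ hθ => (not_le.1 (mem_filter.1 hθ).2).le).trans ?_
        rw [nsmul_eq_mul]
        gcongr
        exact filter_subset _ _
    have e2 : P.card * (u / (4 * Λ * k3 k Λ)) ≤
        (P.filter fun θ => u / (4 * Λ * k3 k Λ) ≤ f θ m).card * (k2 k Λ * u) := by
      have : u / (2 * Λ * k3 k Λ) = 2 * (u / (4 * Λ * k3 k Λ)) := by field_simp; norm_num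
      rw [this] at hm
      linarith
    rw [mul_div_assoc', div_le_iff₀ (by positivity)] at e2
    refine le_of_mul_le_mul_right (e2.trans (le_of_eq ?_)) hu0
    ring
  · intro θ hθ
    refine ⟨fun y hy => (mem_inter.1 (mem_filter.1 (mem_filter.1 hy).1).1).1,
      fun y hy => (mem_inter.1 (mem_filter.1 (mem_filter.1 hy).1).1).2,
      fun y hy => (mem_filter.1 hy).2, (mem_filter.1 hθ).2, ?_⟩
    rcases ((W1 θ).filter fun y => y i1 / 2 ^ j1 = m).eq_empty_or_nonempty with h0 | ⟨y, hy⟩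
    · simp only []
      rw [h0, image_empty, card_empty, Nat.cast_zero, hM]
      have := one_le_k5 k hΛ
      positivity
    · obtain ⟨q1, q2⟩ := mem_filter.1 hy
      refine le_trans (Nat.cast_le.2 (card_le_card (image_subset_image ?_))) (mem_filter.1 q1).2
      intro y' hy'
      obtain ⟨q3, q4⟩ := mem_filter.1 hy'
      exact mem_filter.2 ⟨(mem_inter.1 (mem_filter.1 q3).1).1, q4.trans q2.symm⟩

/-- selection of rich fibres with distinct values of `v` -/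
lemma select {α γ : Type*} [DecidableEq γ] (X : Finset α) (τ : α → γ) (v : α → ℤ)
    {Pn F S L : ℝ} (hP : 0 < Pn) (hτ : ((X.image τ).card : ℝ) ≤ Pn) (hF : 0 < F)
    (hv : ∀ c, ((X.filter fun a => v a = c).card : ℝ) ≤ F) (hS : 1 ≤ S) (hL : L ≤ S / 2)
    (hLX : L * F ≤ X.card / 2) : ∃ R ⊆ X, L ≤ R.card ∧ (R.card : ℝ) ≤ S ∧ Set.InjOn v R ∧
      ∀ r ∈ R, (X.card : ℝ) / (2 * Pn) ≤ (X.filter fun a => τ a = τ r).card := by
  classical
  have hR := rich_half X τ hP hτ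
  set Rich := X.filter fun y => (X.card : ℝ) / (2 * Pn) ≤ (X.filter fun y' => τ y' = τ y).card
  have hmany : L ≤ (Rich.image v).card := by
    have h1 := card_le_mul_of_fib Rich v (Rich.image v) (fun y hy => mem_image_of_mem _ hy)
      (M := F) fun c _ => le_trans (Nat.cast_le.2 (card_le_card
        (filter_subset_filter _ (filter_subset _ _)))) (hv c)
    exact le_of_mul_le_mul_right (hLX.trans (hR.trans h1)) hF
  obtain ⟨V, hV, hVc⟩ := exists_subset_card_eq (s := Rich.image v)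
    (n := min (Rich.image v).card ⌊S⌋₊) (min_le_left _ _)
  obtain ⟨R, hR1, hR2, hR3⟩ := exists_subset_injOn_image_eq_of_surjOn (f := v) (Rich : Set α) V
    (fun c hc => by
      obtain ⟨y, hy, e⟩ := mem_image.1 (hV hc)
      exact ⟨y, hy, e⟩)
  have hc : R.card = V.card := by rw [← hR3, card_image_of_injOn hR2]
  refine ⟨R, fun r hr => (mem_filter.1 (hR1 hr)).1, ?_, ?_, hR2,
    fun r hr => (mem_filter.1 (hR1 hr)).2⟩
  · rw [hc, hVc, Nat.cast_min]
    refine le_min hmany (hL.trans ?_)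
    have h1 := Nat.lt_floor_add_one S
    have h2 : (1 : ℝ) ≤ ⌊S⌋₊ := by exact_mod_cast Nat.floor_pos.2 hS
    linarith
  · rw [hc, hVc]
    exact le_trans (by exact_mod_cast min_le_right _ _) (Nat.floor_le (by linarith))

end Crest.Agent.N76.LG
end

-- ▼ part N76/LG/Z3
section

/-! # Row 76, Lemma G (lattice form), part 3: the anisotropic planar set (helper96) -/

set_option autoImplicit false

namespace Crest.Agent.N76.LG

open Finset Function
open Crest.Agent.N76.MK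

variable {D : Type*} [Fintype D] [DecidableEq D]
variable {β ι : Type*} {k : ℕ} {i0 i1 : D} {N s κ Λ ρ₀ : ℝ} {Y : Finset (D → ℤ)} {P : Finset β}
  {b : β → D → ℝ} {W : β → Finset (D → ℤ)} {τ : β → (D → ℤ) → ι} {T : ℕ}

/-- the anisotropic planar projection -/
def pl2 (i0 i1 : D) (j0 j1 : ℕ) (c0 m : ℤ) (y : D → ℤ) : Fin 2 → ℤ :=
  ![y i0 / 2 ^ j0 + c0, y i1 - m * 2 ^ j1]

def k6 (k : ℕ) (Λ : ℝ) : ℝ :=
  (8 * Λ * k3 k Λ ^ (k + 1)) * (8 * Λ * k3 k Λ * k5 k Λ) * (k4 k Λ * (5 * Λ) ^ (k + 1)) * (7 * Λ)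

omit [Fintype D] [DecidableEq D] in
lemma pl2_phi {j0 j1 : ℕ} {c0 m : ℤ} {a : ℝ} (ha : |2 ^ j0 * a| ≤ 1) (y : D → ℤ) :
    |(pl2 i0 i1 j0 j1 c0 m y 1 : ℝ) - pl2 i0 i1 j0 j1 c0 m y 0 * (2 ^ j0 * a) +
      (m * 2 ^ j1 + c0 * (2 ^ j0 * a)) - (y i1 - y i0 * a)| ≤ 1 := by
  have h1 := abs_div_two_pow (y i0) j0
  have e : (pl2 i0 i1 j0 j1 c0 m y 1 : ℝ) - pl2 i0 i1 j0 j1 c0 m y 0 * (2 ^ j0 * a) +
      (m * 2 ^ j1 + c0 * (2 ^ j0 * a)) - (y i1 - y i0 * a) =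
      -((((y i0 / 2 ^ j0 : ℤ) : ℝ) - y i0 / 2 ^ j0) * (2 ^ j0 * a)) := by
    simp only [pl2, Matrix.cons_val_zero, Matrix.cons_val_one]
    push_cast
    field_simp
    ring
  rw [e, abs_neg, abs_mul]
  exact mul_le_one₀ h1 (abs_nonneg _) ha

set_option maxHeartbeats 400000 in
lemma HypZ.dir_set [DecidableEq ι] {j0 j1 : ℕ}
    (h : HypZ k i0 i1 N s κ Λ (2 ^ j0) Y P b W τ) (H : Std D k T N s Λ)
    (hi : i0 ≠ i1) (hρ : 2 ^ j1 ≤ N / 2 ^ j0) {Y5 : Finset (D → ℤ)} {A : D → Finset ℤ} {B0 B1 : Finset ℤ}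
    (hR : Reg k T j0 j1 i0 i1 N s Λ Y Y5 A B0 B1) (c0 m : ℤ) {θ : β} (hθ : θ ∈ P)
    (W2 : Finset (D → ℤ)) (w1 : W2 ⊆ W θ) (w2 : W2 ⊆ Y5)
    (w4 : (N ^ s) ^ k * ((2 : ℝ) ^ j1) ^ s / (4 * Λ * k3 k Λ) ≤ W2.card)
    (w5 : ((W2.image (τ θ)).card : ℝ) ≤ k5 k Λ * ((N ^ s) ^ k * ((2 : ℝ) ^ j1) ^ s / N ^ s)) :
    ∃ (Ya : Finset (Fin 2 → ℤ)) (lab : (Fin 2 → ℤ) → D → ℤ),
      Ya ⊆ W2.image (pl2 i0 i1 j0 j1 c0 m) ∧ (((2 : ℝ) ^ j1) ^ s) ^ 2 ≤ k6 k Λ * Ya.card ∧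
      ((Ya.image lab).card : ℝ) ≤ ((2 : ℝ) ^ j1) ^ s ∧
      ∀ z ∈ Ya, ∀ z' ∈ Ya, lab z = lab z' →
        |(z 1 : ℝ) - z' 1 - ((z 0 : ℝ) - z' 0) * (2 ^ j0 * b θ i1)| ≤ 3 * Λ := by
  classical
  have hΛ := H.hΛ
  have hN := H.hN
  have g3 := one_le_k3 k hΛ
  have g4 := one_le_k4 k hΛ
  have g5 := one_le_k5 k hΛ
  set S1 := ((2 : ℝ) ^ j1) ^ s with hS1
  set S0 := ((2 : ℝ) ^ j0) ^ s with hS0
  set SN := N ^ s with hSN
  have s1 : 1 ≤ S1 := Real.one_le_rpow (one_le_two_pow _) H.hs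
  have s0 : 0 < S0 := by positivity
  have sN : 0 < SN := by positivity
  have s2 : S1 * S0 ≤ SN := by
    rw [hS1, hS0, ← Real.mul_rpow (by positivity) (by positivity)]
    exact Real.rpow_le_rpow (by positivity) ((le_div_iff₀ (by positivity)).1 hρ) H.hs
  set a := b θ i1 with ha
  have hsl : |2 ^ j0 * a| ≤ 1 := h.slope θ hθ
  set φ : (D → ℤ) → ℝ := fun y => y i1 - y i0 * a with hφ
  have hφt : ∀ y ∈ W2, ∀ y' ∈ W2, τ θ y = τ θ y' → |φ y - φ y'| ≤ Λ := by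
    intro y hy y' hy' e
    have := h.tube θ hθ y (w1 hy) y' (w1 hy') e i1
    convert this using 2
    simp only [hφ]; ring
  have hcard : (univ.erase i1).card = k := by
    rw [card_erase_of_mem (mem_univ i1), card_univ, H.hk]; rfl
  obtain ⟨R, r1, r2, r3, r4, r5⟩ := select W2 (τ θ) (fun y => ⌊φ y⌋) (F := (k3 k Λ * SN) ^ k)
    (S := S1) (L := S1 / (8 * Λ * k3 k Λ ^ (k + 1))) (by positivity) w5 (by positivity)
    (by
      intro c
      have h1 : (W2.filter fun y => ⌊φ y⌋ = c).card ≤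
          (Fintype.piFinset fun i => if i = i1 then {0} else A i).card := by
        refine card_le_card_of_injOn (fun y => update y i1 0) ?_ ?_
        · intro y hy
          rw [mem_coe, Fintype.mem_piFinset]
          intro i
          split_ifs with e
          · subst e; simp
          · simp only [update_of_ne e]; exact hR.mA y (w2 (mem_filter.1 hy).1) i
        · intro y hy y' hy' e
          have h0 : y i0 = y' i0 := by simpa [update_of_ne hi] using congrFun e i0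
          have h2 := Int.abs_sub_lt_one_of_floor_eq_floor
            ((mem_filter.1 hy).2.trans (mem_filter.1 hy').2.symm)
          have h3 : φ y - φ y' = (y i1 : ℝ) - y' i1 := by simp only [hφ, h0]; ring
          rw [h3] at h2
          have h4 : |y i1 - y' i1| < 1 := by exact_mod_cast h2
          funext i
          by_cases e1 : i = i1
          · rw [e1]; rw [abs_lt] at h4; omega
          · simpa [update_of_ne e1] using congrFun e i
      rw [Fintype.card_piFinset, ← mul_prod_erase univ _ (mem_univ i1), if_pos rfl, card_singleton,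
        one_mul] at h1
      calc _ ≤ ∏ i ∈ univ.erase i1, (((if i = i1 then {0} else A i : Finset ℤ)).card : ℝ) := by
            exact_mod_cast h1
        _ ≤ ∏ _i ∈ univ.erase i1, (k3 k Λ * SN) :=
            prod_le_prod (fun _ _ => Nat.cast_nonneg _) fun i hi => by
              rw [if_neg (ne_of_mem_erase hi)]; exact hR.cA i
        _ = _ := by rw [prod_const, hcard])
    s1 (div_le_div_of_nonneg_left (by linarith) (by norm_num)
      (by nlinarith [one_le_pow₀ (n := k + 1) g3]))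
    (by
      refine le_trans (le_of_eq ?_) (div_le_div_of_nonneg_right w4 (by norm_num))
      field_simp; ring)
  set pl := pl2 i0 i1 j0 j1 c0 m with hpl
  set Tr : (D → ℤ) → Finset (D → ℤ) := fun r => W2.filter fun y => τ θ y = τ θ r with hTr
  set Ya := R.biUnion fun r => (Tr r).image pl with hYa
  have hch : ∀ z : Fin 2 → ℤ, ∃ r, z ∈ Ya → r ∈ R ∧ z ∈ (Tr r).image pl := by
    intro z
    by_cases hz : z ∈ Ya
    · obtain ⟨r, q1, q2⟩ := mem_biUnion.1 hz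
      exact ⟨r, fun _ => ⟨q1, q2⟩⟩
    · exact ⟨0, fun q => absurd q hz⟩
  choose lab hlab using hch
  refine ⟨Ya, lab, biUnion_subset.2 fun r _ => image_subset_image (filter_subset _ _), ?_, ?_, ?_⟩
  · have t1 : ∀ r ∈ R, SN / (8 * Λ * k3 k Λ * k5 k Λ) ≤ (Tr r).card := by
      intro r hr
      refine le_trans ?_ (r5 r hr)
      refine le_trans (le_of_eq ?_) (div_le_div_of_nonneg_right w4 (by positivity))
      field_simp; ring
    have t2 : ∀ r ∈ R, ((Tr r).card : ℝ) ≤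
        ((Tr r).image pl).card * (k4 k Λ * S0 * (5 * Λ) ^ (k + 1)) := by
      intro r _
      refine card_le_mul_of_fib _ pl _ (fun y hy => mem_image_of_mem _ hy) fun z hz => ?_
      obtain ⟨y0, hy0, rfl⟩ := mem_image.1 hz
      have hy5 := w2 (mem_filter.1 hy0).1
      refine (card_le_mul_of_fib _ (fun y => y i0)
        ((A i0).filter fun v => v / 2 ^ j0 = y0 i0 / 2 ^ j0) ?_ (M := (5 * Λ) ^ (k + 1)) ?_).trans
        (mul_le_mul_of_nonneg_right (hR.hA0 y0 hy5) (by positivity))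
      · intro y hy
        refine mem_filter.2 ⟨hR.mA y (w2 (mem_filter.1 (mem_filter.1 hy).1).1) i0, ?_⟩
        have := congrFun (mem_filter.1 hy).2 0
        simpa [hpl, pl2] using this
      · intro v _
        rcases (((Tr r).filter fun y => pl y = pl y0).filter fun y => y i0 = v).eq_empty_or_nonempty
          with q | ⟨y1, hy1⟩
        · rw [q]; simp only [card_empty, Nat.cast_zero]; positivity
        · rw [← H.hk]
          refine le_trans (Nat.cast_le.2 ?_) (card_box (D := D) hΛ)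
          refine card_le_card_of_injOn (fun y => y - y1) ?_ fun y _ y' _ e => sub_left_injective e
          intro y hy
          simp only [coe_filter, Set.mem_ofPred_eq, mem_filter, hTr] at hy hy1
          refine mem_box fun i => ?_
          have h3 := h.tube θ hθ y (w1 hy.1.1.1) y1 (w1 hy1.1.1.1)
            (hy.1.1.2.trans hy1.1.1.2.symm) i
          rw [hy.2, hy1.2, sub_self, zero_mul, sub_zero] at h3
          simp only [Pi.sub_apply]
          push_cast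
          linarith
    have t3 : ∑ r ∈ R, (((Tr r).image pl).card : ℝ) ≤ Ya.card * (7 * Λ) := by
      have e1 : ∀ r ∈ R, (((Tr r).image pl).card : ℝ) =
          ∑ z ∈ Ya, if z ∈ (Tr r).image pl then (1 : ℝ) else 0 := by
        intro r hr
        rw [sum_boole, filter_mem_eq_inter, inter_eq_right.2 (subset_biUnion_of_mem
          (fun r => (Tr r).image pl) hr)]
      rw [sum_congr rfl e1, sum_comm, ← nsmul_eq_mul]
      refine sum_le_card_nsmul _ _ _ fun z _ => ?_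
      rw [sum_boole, ← card_image_of_injOn (f := fun y => ⌊φ y⌋)
        (r4.mono (coe_subset.2 (filter_subset _ _)))]
      refine (card_int_close _ ((z 1 : ℝ) - z 0 * (2 ^ j0 * a) + (m * 2 ^ j1 + c0 * (2 ^ j0 * a)))
        (Λ + 2) (by linarith) ?_).trans (by linarith)
      intro c hc
      obtain ⟨r, hr, rfl⟩ := mem_image.1 hc
      obtain ⟨y, hy, rfl⟩ := mem_image.1 (mem_filter.1 hr).2
      have q1 := abs_le.1 (pl2_phi (i0 := i0) (i1 := i1) (j1 := j1) (c0 := c0) (m := m) hsl y)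
      have q2 := abs_le.1 (hφt y (mem_filter.1 hy).1 r (r1 (mem_filter.1 hr).1) (mem_filter.1 hy).2)
      have q3 := Int.floor_le (φ r)
      have q4 := Int.lt_floor_add_one (φ r)
      simp only [hφ] at q2 q3 q4 ⊢
      rw [abs_le]
      constructor <;> linarith [q1.1, q1.2, q2.1, q2.2]
    have t4 : S1 / (8 * Λ * k3 k Λ ^ (k + 1)) * (SN / (8 * Λ * k3 k Λ * k5 k Λ)) ≤
        Ya.card * (7 * Λ) * (k4 k Λ * S0 * (5 * Λ) ^ (k + 1)) := by
      calc _ ≤ R.card * (SN / (8 * Λ * k3 k Λ * k5 k Λ)) := by gcongr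
        _ ≤ ∑ r ∈ R, ((Tr r).card : ℝ) := by
            rw [← nsmul_eq_mul]; exact card_nsmul_le_sum _ _ _ t1
        _ ≤ _ := sum_le_sum t2
        _ ≤ _ := by rw [← sum_mul]; gcongr
    rw [div_mul_div_comm, div_le_iff₀ (by positivity)] at t4
    refine le_of_mul_le_mul_right ?_ s0
    calc S1 ^ 2 * S0 = S1 * (S1 * S0) := by ring
      _ ≤ S1 * SN := by gcongr
      _ ≤ _ := t4
      _ = _ := by rw [k6]; ring
  · refine le_trans (Nat.cast_le.2 (card_le_card ?_)) r3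
    intro r hr
    obtain ⟨z, hz, rfl⟩ := mem_image.1 hr
    exact (hlab z hz).1
  · intro z hz z' hz' e
    obtain ⟨y, hy, rfl⟩ := mem_image.1 (hlab z hz).2
    obtain ⟨y', hy', rfl⟩ := mem_image.1 (hlab z' hz').2
    have q1 := abs_le.1 (pl2_phi (i0 := i0) (i1 := i1) (j1 := j1) (c0 := c0) (m := m) hsl y)
    have q2 := abs_le.1 (pl2_phi (i0 := i0) (i1 := i1) (j1 := j1) (c0 := c0) (m := m) hsl y')
    have q3 := abs_le.1 (hφt y (mem_filter.1 hy).1 y' (mem_filter.1 hy').1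
      (by rw [(mem_filter.1 hy).2, (mem_filter.1 hy').2, e]))
    simp only [hφ] at q3
    rw [abs_le]
    constructor <;> linarith [q1.1, q1.2, q2.1, q2.2, q3.1, q3.2]

omit [DecidableEq D] in
lemma aux_div (y : ℤ) (a t : ℕ) : y / 2 ^ a / 2 ^ t = y / 2 ^ (a + t) := by
  rw [Int.ediv_ediv_of_nonneg (by positivity), pow_add]

omit [DecidableEq D] in
/-- the blocks of the first coordinate form a Frostman set -/
lemma Reg.fro0 {j0 j1 : ℕ} (H : Std D k T N s Λ) {Y5 : Finset (D → ℤ)} {A : D → Finset ℤ}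
    {B0 B1 : Finset ℤ} (hR : Reg k T j0 j1 i0 i1 N s Λ Y Y5 A B0 B1) (V : Finset ℤ)
    (hV : ∀ v ∈ V, ∃ y ∈ Y5, v = y i0 / 2 ^ j0) {x r : ℝ} (hr : 1 ≤ r)
    (hx : ∀ v ∈ V, x ≤ v ∧ (v : ℝ) ≤ x + r) : (V.card : ℝ) ≤ 5 * k3 k Λ * k4 k Λ * r ^ s := by
  have hΛ := H.hΛ
  have hN := H.hN
  have g3 := one_le_k3 k hΛ
  have g4 := one_le_k4 k hΛ
  have hr0 : 0 < r ^ s := by positivity
  have hVB : V ⊆ B0 := fun v hv => by
    obtain ⟨y, hy, rfl⟩ := hV v hv
    exact hR.mB0 y hy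
  rcases le_total r (N / 2 ^ j0) with q | q
  · obtain ⟨t, t1, t2⟩ := exists_nat_pow_near hr (show (1 : ℝ) < 2 by norm_num)
    have ht : j0 + t < T := by
      rw [H.hTN, pow_add]
      rw [le_div_iff₀ (by positivity)] at q
      nlinarith [one_le_two_pow j0]
    refine (card_le_mul_of_fib V (fun v => v / 2 ^ t) (V.image fun v => v / 2 ^ t)
      (fun v hv => mem_image_of_mem _ hv) (M := k4 k Λ * r ^ s) ?_).trans ?_
    · intro c hc
      obtain ⟨v, hv, rfl⟩ := mem_image.1 hc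
      obtain ⟨y, hy, rfl⟩ := hV v hv
      rw [aux_div]
      refine le_trans (Nat.cast_le.2 (card_le_card (filter_subset_filter _ hVB)))
        ((hR.hB0 y hy t ht).trans ?_)
      exact mul_le_mul_of_nonneg_left (Real.rpow_le_rpow (by positivity) t1 H.hs) (by linarith)
    · have h1 : ((V.image fun v => v / 2 ^ t).card : ℝ) ≤ 2 * 2 + 1 := by
        refine card_int_close _ (x / 2 ^ t + 1) 2 (by norm_num) fun c hc => ?_
        obtain ⟨v, hv, rfl⟩ := mem_image.1 hc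
        have q1 := abs_le.1 (abs_div_two_pow v t)
        have q2 : x / 2 ^ t ≤ v / 2 ^ t := div_le_div_of_nonneg_right (hx v hv).1 (by positivity)
        have q3 : (v : ℝ) / 2 ^ t ≤ x / 2 ^ t + 2 := by
          rw [div_add' _ _ _ (by positivity)]
          refine div_le_div_of_nonneg_right ?_ (by positivity)
          rw [pow_succ] at t2
          linarith [(hx v hv).2]
        rw [abs_le]; constructor <;> linarith [q1.1, q1.2]
      have h2 : 0 ≤ k4 k Λ * r ^ s := by positivity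
      nlinarith
  · refine le_trans (Nat.cast_le.2 (card_le_card hVB)) (hR.cB0.trans ?_)
    rw [← Real.div_rpow (by linarith) (by positivity)]
    have h1 := Real.rpow_le_rpow (by positivity) q H.hs
    calc _ ≤ k3 k Λ * r ^ s := by gcongr
      _ = 1 * k3 k Λ * 1 * r ^ s := by ring
      _ ≤ _ := by gcongr; norm_num

end Crest.Agent.N76.LG
end

-- ▼ part N76/LG/Z4

/-! # Row 76, Lemma G (lattice form), part 4: conclusion (helper96) -/

set_option autoImplicit false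

namespace Crest.Agent.N76.LG

open Finset Function
open Crest.Agent.N76.MK

variable {D : Type*} [Fintype D] [DecidableEq D]
variable {β ι : Type*} {k : ℕ} {i0 i1 : D} {N s κ Λ ρ₀ : ℝ} {Y : Finset (D → ℤ)} {P : Finset β}
  {b : β → D → ℝ} {W : β → Finset (D → ℤ)} {τ : β → (D → ℤ) → ι} {T : ℕ}

lemma one_le_k6 (k : ℕ) {Λ : ℝ} (h : 1 ≤ Λ) : 1 ≤ k6 k Λ := by
  have g3 := one_le_k3 k h
  have g4 := one_le_k4 k h
  have g5 := one_le_k5 k h
  have m : ∀ {a b : ℝ}, 1 ≤ a → 1 ≤ b → 1 ≤ a * b := one_le_mul_of_one_le_of_one_le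
  exact m (m (m (m (by linarith) (one_le_pow₀ g3)) (m (m (by linarith) g3) g5))
    (m g4 (one_le_pow₀ (by linarith)))) (by linarith)

/-- the total loss -/
def k7 (k : ℕ) (Λ : ℝ) : ℝ := 1000 * Λ ^ 3 * k2 k Λ * (k3 k Λ * k4 k Λ) ^ 2 * k6 k Λ

lemma Fr.sub {γ : Type*} {Θ Θ' : Finset β} {a : β → γ → ℝ} {J : Finset γ} {δ δ' κ Λ M L : ℝ}
    (h : Fr Θ a J δ κ Λ) (hs : Θ' ⊆ Θ) (hM : (Θ.card : ℝ) ≤ M * Θ'.card) (hδ : δ ≤ L * δ')
    (hδ' : 0 < δ') (hδ1 : δ ≤ 1) (hL : 1 ≤ L) (hκ : 0 ≤ κ) (hκ1 : κ ≤ 1) (hΛ : 0 ≤ Λ) :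
    Fr Θ' a J δ' κ (Λ * L * M) := by
  classical
  intro v ρ h1 h2
  have hρ : 0 < ρ := hδ'.trans_le h1
  have q1 := h v (max ρ δ) (le_max_right _ _) (max_le h2 hδ1)
  have q2 : (max ρ δ) ^ κ ≤ L * ρ ^ κ := by
    have : max ρ δ ≤ L * ρ := max_le (by nlinarith) (hδ.trans (by nlinarith))
    refine (Real.rpow_le_rpow (by positivity) this hκ).trans ?_
    rw [Real.mul_rpow (by linarith) hρ.le]
    refine mul_le_mul_of_nonneg_right ?_ (by positivity)
    conv_rhs => rw [← Real.rpow_one L]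
    exact Real.rpow_le_rpow_of_exponent_le hL hκ1
  calc _ ≤ ((Θ.filter fun θ => ∀ j ∈ J, |a θ j - v j| ≤ max ρ δ).card : ℝ) := by
        refine Nat.cast_le.2 (card_le_card fun θ hθ => ?_)
        rw [mem_filter] at hθ ⊢
        exact ⟨hs hθ.1, fun j hj => (hθ.2 j hj).trans (le_max_left _ _)⟩
    _ ≤ Λ * (max ρ δ) ^ κ * Θ.card := q1
    _ ≤ Λ * (L * ρ ^ κ) * (M * Θ'.card) := by gcongr
    _ = _ := by ring

set_option maxHeartbeats 800000 in
theorem HypZ.false {j0 j1 : ℕ} (h : HypZ k i0 i1 N s κ Λ (2 ^ j0) Y P b W τ)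
    (H : Std D k T N s Λ) (hi : i0 ≠ i1) (hρ : 2 ^ j1 ≤ N / 2 ^ j0)
    (hρ' : N / 2 ^ j0 ≤ 2 * 2 ^ j1) (hκ : 0 ≤ κ) (hκ1 : κ ≤ 1) {ε D₀ : ℝ}
    (hBR : BR.Body s κ ε D₀) (hD : 1 / (7 * Λ * 2 ^ j1) ≤ D₀)
    (hQ : (120 * k7 k Λ) ^ 16 ≤ (7 * Λ * 2 ^ j1) ^ ε) : False := by
  classical
  have hΛ := H.hΛ
  have hN := H.hN
  have g2 := one_le_k2 k hΛ
  have g3 := one_le_k3 k hΛ
  have g4 := one_le_k4 k hΛ
  have g6 := one_le_k6 k hΛ
  have r0 := one_le_two_pow j0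
  have r1 := one_le_two_pow j1
  have h0 : j0 < T := by
    rw [H.hTN]; rw [le_div_iff₀ (by positivity)] at hρ; nlinarith
  have h1 : j1 < T := by
    rw [H.hTN]; rw [le_div_iff₀ (by positivity)] at hρ; nlinarith
  obtain ⟨Y5, A, B0, B1, hR⟩ := h.reg H h0 h1
  obtain ⟨m, P2, W2, p1, p2, p3⟩ := h.window H h1 hρ' hR
  have hY5 : Y5 ⊆ Y := hR.sub.trans (filter_subset _ _)
  set c0 : ℤ := ⌈2 * Λ * 2 ^ j1⌉ + 1 with hc0
  set pl := pl2 i0 i1 j0 j1 c0 m with hpl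
  set Y6 := Y5.filter fun y => y i1 / 2 ^ j1 = m with hY6
  set Z := Y6.image pl with hZ
  set S1 := ((2 : ℝ) ^ j1) ^ s with hS1
  have s1 : 1 ≤ S1 := Real.one_le_rpow r1 H.hs
  set M : ℝ := 7 * Λ * 2 ^ j1 with hM
  have hM1 : 2 ^ j1 ≤ M := by rw [hM]; nlinarith
  have s2 : S1 ≤ M ^ s := Real.rpow_le_rpow (by positivity) hM1 H.hs
  have s3 : M ^ s ≤ 7 * Λ * S1 := by
    rw [hM, Real.mul_rpow (by positivity) (by positivity)]
    refine mul_le_mul_of_nonneg_right ?_ (by positivity)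
    conv_rhs => rw [← Real.rpow_one (7 * Λ)]
    exact Real.rpow_le_rpow_of_exponent_le (by linarith) H.hs1
  have key : ∀ θ, ∃ (Ya : Finset (Fin 2 → ℤ)) (lab : (Fin 2 → ℤ) → D → ℤ), θ ∈ P2 →
      Ya ⊆ Z ∧ S1 ^ 2 ≤ k6 k Λ * Ya.card ∧ ((Ya.image lab).card : ℝ) ≤ S1 ∧
      ∀ z ∈ Ya, ∀ z' ∈ Ya, lab z = lab z' →
        |(z 1 : ℝ) - z' 1 - ((z 0 : ℝ) - z' 0) * (2 ^ j0 * b θ i1)| ≤ 3 * Λ := by
    intro θ
    by_cases hθ : θ ∈ P2
    · obtain ⟨w1, w2, w3, w4, w5⟩ := p3 θ hθ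
      obtain ⟨Ya, lab, q1, q2⟩ := h.dir_set H hi hρ hR c0 m (p1 hθ) (W2 θ) w1 w2 w4 w5
      exact ⟨Ya, lab, fun _ => ⟨q1.trans (image_subset_image fun y hy =>
        mem_filter.2 ⟨w2 hy, w3 y hy⟩), q2⟩⟩
    · exact ⟨∅, fun _ => 0, fun q => absurd q hθ⟩
  choose Ya lab hYa using key
  have hP2 : P2.Nonempty := by
    have : (0 : ℝ) < P.card := by exact_mod_cast h.ne.card_pos
    rw [nonempty_iff_ne_empty]
    rintro rfl
    simp only [card_empty, Nat.cast_zero, mul_zero] at p2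
    linarith
  have hprj : ∀ j, ((prj j Z).card : ℝ) ≤ 2 * k3 k Λ * k4 k Λ * S1 ^ 1 := by
    rw [Fin.forall_fin_two, pow_one]
    constructor
    · rcases Y6.eq_empty_or_nonempty with q | ⟨y0, hy0⟩
      · rw [hZ, q]; simp only [prj, image_empty, card_empty, Nat.cast_zero]; positivity
      · have q1 := hR.hA1 y0 (mem_filter.1 hy0).1
        have q2 : prj 0 Z ⊆ ((A i1).filter fun v => v / 2 ^ j1 = y0 i1 / 2 ^ j1).image
            fun v => ![0, v - m * 2 ^ j1] := by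
          intro z hz
          obtain ⟨z', hz', rfl⟩ := mem_image.1 hz
          obtain ⟨y, hy, rfl⟩ := mem_image.1 hz'
          refine mem_image.2 ⟨y i1, mem_filter.2 ⟨hR.mA y (mem_filter.1 hy).1 i1,
            (mem_filter.1 hy).2.trans (mem_filter.1 hy0).2.symm⟩, ?_⟩
          funext i; fin_cases i <;> simp [hpl, pl2]
        refine le_trans (Nat.cast_le.2 ((card_le_card q2).trans card_image_le)) (q1.trans ?_)
        have : 0 ≤ k4 k Λ * S1 := by positivity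
        nlinarith
    · have q2 : prj 1 Z ⊆ B0.image fun v => ![v + c0, 0] := by
        intro z hz
        obtain ⟨z', hz', rfl⟩ := mem_image.1 hz
        obtain ⟨y, hy, rfl⟩ := mem_image.1 hz'
        refine mem_image.2 ⟨_, hR.mB0 y (mem_filter.1 hy).1, ?_⟩
        funext i; fin_cases i <;> simp [hpl, pl2]
      refine le_trans (Nat.cast_le.2 ((card_le_card q2).trans card_image_le)) (hR.cB0.trans ?_)
      rw [← Real.div_rpow (by linarith) (by positivity)]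
      have q3 : (N / 2 ^ j0) ^ s ≤ 2 * S1 := by
        refine (Real.rpow_le_rpow (by positivity) hρ' H.hs).trans ?_
        rw [Real.mul_rpow (by positivity) (by positivity)]
        refine mul_le_mul_of_nonneg_right ?_ (by positivity)
        conv_rhs => rw [← Real.rpow_one 2]
        exact Real.rpow_le_rpow_of_exponent_le (by norm_num) H.hs1
      calc _ ≤ k3 k Λ * (2 * S1) := by gcongr
        _ = 2 * k3 k Λ * 1 * S1 := by ring
        _ ≤ _ := by gcongr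
  have hZc := card_le_of_prj (D := Fin 2) (k := 1) (by simp) le_rfl Z (by nlinarith)
    (by linarith) hprj
  have m1 : ∀ {a b : ℝ}, 1 ≤ a → 1 ≤ b → 1 ≤ a * b := one_le_mul_of_one_le_of_one_le
  have p := fun n => one_le_pow₀ (n := n) hΛ
  have K : ∀ {u v : ℝ}, 0 ≤ u → 1 ≤ v → u * v ≤ k7 k Λ → u ≤ k7 k Λ := fun hu hv q =>
    (le_mul_of_one_le_right hu hv).trans q
  have e0 : 0 ≤ Λ ^ 3 * k2 k Λ * (k3 k Λ * k4 k Λ) ^ 2 * k6 k Λ := by positivity
  have K1 : 49 * Λ ^ 2 * k6 k Λ ≤ k7 k Λ := K (by positivity)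
    (m1 (m1 hΛ g2) (one_le_pow₀ (n := 2) (m1 g3 g4))) (by rw [k7]; linarith)
  have K2 : (2 * k3 k Λ * k4 k Λ) ^ 2 * k6 k Λ ≤ k7 k Λ := K (by positivity)
    (m1 (p 3) g2) (by rw [k7]; linarith)
  have K3 : Λ * (7 * Λ) * (4 * Λ * k3 k Λ * k2 k Λ) ≤ k7 k Λ := K (by positivity)
    (m1 (m1 g3 (one_le_pow₀ (n := 2) g4)) g6) (by rw [k7]; linarith)
  have K4 : 5 * k3 k Λ * k4 k Λ * (7 * Λ) ≤ k7 k Λ := K (by positivity)
    (m1 (m1 (m1 (p 2) g2) (m1 g3 g4)) g6) (by rw [k7]; linarith)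
  have g34 := m1 g3 g4
  have K5 : 2 * k3 k Λ * k4 k Λ ≤ k7 k Λ := by nlinarith
  have K6 : 3 * Λ ≤ k7 k Λ := by nlinarith
  have K0 : 0 ≤ k7 k Λ := by linarith
  refine planar' (D := Fin 2) (d := 1) (i0 := 0) (i1 := 1) (N := M) (Λ := k7 k Λ) (by simp) le_rfl
    (by decide) hBR H.hs hκ hκ1 (r1.trans hM1) hD (by linarith) 
    (by rw [show 60 * (((1 : ℕ) : ℝ) + 1) * k7 k Λ = 120 * k7 k Λ by norm_num]; exact hQ)
    Z ?_ ?_ (fun j => (hprj j).trans (by gcongr)) P2 hP2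
    (fun θ => ![1, 2 ^ j0 * b θ i1]) (fun θ hθ => h.slope θ (p1 hθ)) ?_ Ya lab
    (fun θ hθ => (hYa θ hθ).1) ?_ ?_ ?_ ?_
  · intro z hz
    obtain ⟨y, hy, rfl⟩ := mem_image.1 hz
    rw [Fin.forall_fin_two]
    have q1 := abs_le.1 (abs_div_two_pow (y i0) j0)
    have q2 : |(y i0 : ℝ) / 2 ^ j0| ≤ 2 * Λ * 2 ^ j1 := by
      rw [abs_div, abs_of_pos (show (0 : ℝ) < 2 ^ j0 by positivity)]
      calc _ ≤ Λ * N / 2 ^ j0 := div_le_div_of_nonneg_right
            (h.bd y (hY5 (mem_filter.1 hy).1) i0) (by positivity)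
        _ = Λ * (N / 2 ^ j0) := by ring
        _ ≤ Λ * (2 * 2 ^ j1) := by gcongr
        _ = _ := by ring
    have q3 := Int.le_ceil (2 * Λ * 2 ^ j1)
    have q4 := Int.ceil_lt_add_one (2 * Λ * 2 ^ j1)
    have q5 : 1 ≤ Λ * 2 ^ j1 := m1 hΛ r1
    have q6 : y i1 - m * 2 ^ j1 = y i1 % 2 ^ j1 := by
      rw [← (mem_filter.1 hy).2, Int.emod_def]; ring
    have q7 := Int.emod_nonneg (y i1) (show (2 : ℤ) ^ j1 ≠ 0 by positivity)
    have q8 := Int.emod_lt_of_pos (y i1) (show (0 : ℤ) < 2 ^ j1 by positivity)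
    rw [abs_le] at q2
    simp only [hpl, pl2, Matrix.cons_val_zero, Matrix.cons_val_one, q6]
    refine ⟨⟨?_, ?_⟩, q7, le_trans (by exact_mod_cast q8.le) hM1⟩
    · have : (0 : ℝ) ≤ ((y i0 / 2 ^ j0 + c0 : ℤ) : ℝ) := by
        rw [hc0]; simp only [Int.cast_add, Int.cast_one]; linarith [q1.1, q2.1]
      exact_mod_cast this
    · rw [hc0, hM]; simp only [Int.cast_add, Int.cast_one]; linarith [q1.2, q2.2]
  · obtain ⟨θ, hθ⟩ := hP2
    have q1 : ((Ya θ).card : ℝ) ≤ Z.card := Nat.cast_le.2 (card_le_card (hYa θ hθ).1)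
    calc (M ^ s) ^ (1 + 1) ≤ (7 * Λ * S1) ^ 2 := pow_le_pow_left₀ (by positivity) s3 _
      _ = 49 * Λ ^ 2 * S1 ^ 2 := by ring
      _ ≤ 49 * Λ ^ 2 * (k6 k Λ * Z.card) :=
          mul_le_mul_of_nonneg_left ((hYa θ hθ).2.1.trans (by gcongr)) (by positivity)
      _ = 49 * Λ ^ 2 * k6 k Λ * Z.card := by ring
      _ ≤ _ := by gcongr
  · have q := h.fro.sub p1 p2 (δ' := 1 / M) (L := 7 * Λ) (by
        rw [hM, show 7 * Λ * (1 / (7 * Λ * 2 ^ j1)) = 1 / 2 ^ j1 by field_simp,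
          div_le_div_iff₀ (by linarith) (by positivity)]
        rw [le_div_iff₀ (by positivity)] at hρ; linarith) (by positivity)
      ((div_le_one (by linarith)).2 ((H.hTN _).1 h0)) (by linarith) hκ hκ1 (by linarith)
    intro v ρ q1 q2
    have q3 := q (fun _ => v 1) ρ q1 q2
    have hρ0 : 0 ≤ ρ ^ κ := Real.rpow_nonneg (le_trans (by positivity) q1) _
    refine le_trans (le_of_eq ?_) (q3.trans (by gcongr))
    simp
  · intro θ hθ
    calc _ ≤ (2 * k3 k Λ * k4 k Λ) ^ 2 * S1 ^ (1 + 1) := hZc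
      _ ≤ (2 * k3 k Λ * k4 k Λ) ^ 2 * (k6 k Λ * (Ya θ).card) :=
          mul_le_mul_of_nonneg_left (hYa θ hθ).2.1 (by positivity)
      _ = (2 * k3 k Λ * k4 k Λ) ^ 2 * k6 k Λ * (Ya θ).card := by ring
      _ ≤ _ := by gcongr
  · intro θ hθ
    refine (hYa θ hθ).2.2.1.trans ?_
    rw [pow_one]
    nlinarith
  · intro θ hθ z hz z' hz' e
    rw [Fin.forall_fin_two]
    refine ⟨by simp; linarith, ((hYa θ hθ).2.2.2 z hz z' hz' e).trans K6⟩
  · intro θ hθ z0 _ x r hr _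
    set F := (Ya θ).filter fun y => lab θ y = lab θ z0 ∧ x ≤ y 0 ∧ (y 0 : ℝ) ≤ x + r with hF
    refine (card_le_mul_of_fib F (fun z => z 0 - c0) (F.image fun z => z 0 - c0)
      (fun z hz => mem_image_of_mem _ hz) (M := 7 * Λ) ?_).trans ?_
    · intro c hc
      obtain ⟨z1, hz1, rfl⟩ := mem_image.1 hc
      rw [← card_image_of_injOn (f := fun z => z 1) (by
        intro z hz z' hz' e
        have := (mem_filter.1 hz).2.trans (mem_filter.1 hz').2.symm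
        funext i; fin_cases i
        · exact sub_left_injective this
        · exact e)]
      refine (card_int_close _ (z1 1) (3 * Λ) (by linarith) fun v hv => ?_).trans (by linarith)
      obtain ⟨z, hz, rfl⟩ := mem_image.1 hv
      obtain ⟨q1, q2⟩ := mem_filter.1 hz
      have q3 := (hYa θ hθ).2.2.2 z (mem_filter.1 q1).1 z1 (mem_filter.1 hz1).1
        ((mem_filter.1 q1).2.1.trans (mem_filter.1 hz1).2.1.symm)
      rwa [show z 0 = z1 0 from sub_left_injective q2, sub_self, zero_mul, sub_zero] at q3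
    · have q := hR.fro0 H (F.image fun z => z 0 - c0) (x := x - c0) (by
          intro v hv
          obtain ⟨z, hz, rfl⟩ := mem_image.1 hv
          obtain ⟨y, hy, rfl⟩ := mem_image.1 ((hYa θ hθ).1 (mem_filter.1 hz).1)
          exact ⟨y, (mem_filter.1 hy).1, by simp [hpl, pl2]⟩) hr (by
          intro v hv
          obtain ⟨z, hz, rfl⟩ := mem_image.1 hv
          have := (mem_filter.1 hz).2.2
          push_cast
          constructor <;> linarith [this.1, this.2])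
      calc _ ≤ 5 * k3 k Λ * k4 k Λ * r ^ s * (7 * Λ) := by gcongr
        _ = 5 * k3 k Λ * k4 k Λ * (7 * Λ) * r ^ s := by ring
        _ ≤ _ := by gcongr

end Crest.Agent.N76.LG
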